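import Vale.Agent.Lib.P067.C.Block

/-!
# P067 part C: adapted bases (C7): `f_i ∈ c_i ∖ c_{i-1}` with `ord f_i = w(i)`, `f_{i+n} = sh n f_i`
-/

namespace Vale.P067.C

open scoped Classical

variable {k : Type*} [Field k] {n : ℕ}

/-- the vectors -/
theorem exists_adapted_vectors (hn : 0 < n) (c : Cham k n) :
    ∃ f : ℤ → E k, (∀ i, c.At i (f i)) ∧ (∀ i, ordv (f i) = ww (vOrd k n) c i) ∧
      (∀ i, f i (ww (vOrd k n) c i) = 1) ∧ ∀ i, f (i + n) = sh k n (f i) := by
  have hn' : (0 : ℤ) < n := by exact_mod_cast hn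
  have hg : ∀ i : ℤ, ∃ v : E k, c.At i v ∧ ordv v = ww (vOrd k n) c i ∧
      v (ww (vOrd k n) c i) = 1 := by
    intro i
    obtain ⟨v, hv, hvw⟩ := ww_spec (vOrd k n) c i
    have hvw' : ordv v = ww (vOrd k n) c i := hvw
    have h1 := (ordv_spec hv.ne_zero).1
    rw [hvw'] at h1
    refine ⟨(v (ww (vOrd k n) c i))⁻¹ • v, hv.smul (inv_ne_zero h1), ?_, ?_⟩
    · rw [ordv_smul _ _ (inv_ne_zero h1)]
      exact hvw'
    · rw [Finsupp.smul_apply, smul_eq_mul, inv_mul_cancel₀ h1]
  choose g hg1 hg2 hg3 using hg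
  have hdec : ∀ i : ℤ, i = i % n + (i / n) * n := by
    intro i
    have := Int.emod_add_mul_ediv i n
    linarith
  have hww : ∀ i : ℤ, ww (vOrd k n) c i = ww (vOrd k n) c (i % n) + (i / n) * n := by
    intro i
    have h1 := ww_add (vOrd k n) c (i % n) (i / n)
    rw [← hdec i] at h1
    rw [h1]
    change _ + 1 * _ = _
    rw [one_mul]
  refine ⟨fun i => sh k ((i / n) * n) (g (i % n)), fun i => ?_, fun i => ?_, fun i => ?_,
    fun i => ?_⟩
  · have h1 := (c.at_sh (i % n) (i / n) (g (i % n))).2 (hg1 _)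
    rw [← hdec i] at h1
    exact h1
  · change ordv (sh k ((i / n) * n) (g (i % n))) = _
    rw [ordv_shift _ _ (hg1 _).ne_zero, hg2, hww i]
  · change (sh k ((i / n) * n) (g (i % n))) _ = 1
    rw [sh_apply, hww i, add_sub_cancel_right, hg3]
  · change sh k (((i + n) / n) * n) (g ((i + n) % n)) = sh k n (sh k ((i / n) * n) (g (i % n)))
    have h1 : (i + n) / n = i / n + 1 := by
      have := Int.add_mul_ediv_right i 1 hn'.ne'
      rw [one_mul] at this
      exact this
    have h2 : (i + n) % n = i % n := Int.add_emod_right i n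
    rw [h1, h2]
    ext b
    rw [sh_apply, sh_apply, sh_apply]
    congr 1
    ring

/-- value of a linear combination: the `w(l)` are distinct -/
theorem ordv_adapted (c : Cham k n) (f : ℤ → E k) (hf : ∀ i, c.At i (f i))
    (ho : ∀ i, ordv (f i) = ww (vOrd k n) c i) (v : E k) (hv : v ≠ 0) :
    ∃ l, v l ≠ 0 ∧ ordv (Finsupp.linearCombination k f v) = ww (vOrd k n) c l ∧
      ∀ m, v m ≠ 0 → ww (vOrd k n) c l ≤ ww (vOrd k n) c m := by
  obtain ⟨l, hl, hmin⟩ := Finset.exists_min_image v.support (ww (vOrd k n) c)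
    (Finsupp.support_nonempty_iff.2 hv)
  have hfl : ∀ m, f m ≠ 0 := fun m => (hf m).ne_zero
  refine ⟨l, Finsupp.mem_support_iff.1 hl, ?_, fun m hm => hmin m (Finsupp.mem_support_iff.2 hm)⟩
  have hval : ∀ b : ℤ, (Finsupp.linearCombination k f v) b = ∑ m ∈ v.support, v m * f m b := by
    intro b
    rw [Finsupp.linearCombination_apply, Finsupp.sum, Finsupp.finsetSum_apply]
    refine Finset.sum_congr rfl fun m _ => ?_
    rw [Finsupp.smul_apply, smul_eq_mul]
  refine ordv_eq ?_ ?_
  · rw [hval, Finset.sum_eq_single l]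
    · refine mul_ne_zero (Finsupp.mem_support_iff.1 hl) ?_
      have h1 := (ordv_spec (hfl l)).1
      rwa [ho l] at h1
    · intro m hm hml
      have h1 := hmin m hm
      have h2 : ww (vOrd k n) c l ≠ ww (vOrd k n) c m := fun h => hml (ww_inj _ c h).symm
      have h3 : ww (vOrd k n) c l < ww (vOrd k n) c m := lt_of_le_of_ne h1 h2
      rw [(ordv_spec (hfl m)).2 _ (by rw [ho m]; exact h3), mul_zero]
    · intro h
      exact absurd hl h
  · intro b hb
    rw [hval]
    refine Finset.sum_eq_zero fun m hm => ?_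
    rw [(ordv_spec (hfl m)).2 _ (by rw [ho m]; exact lt_of_lt_of_le hb (hmin m hm)), mul_zero]

/-- level of a linear combination -/
theorem at_adapted (c : Cham k n) (f : ℤ → E k) (hf : ∀ i, c.At i (f i)) (v : E k) (hv : v ≠ 0) :
    c.At (degv v) (Finsupp.linearCombination k f v) := by
  obtain ⟨h1, h2⟩ := degv_spec hv
  have hd : degv v ∈ v.support := Finsupp.mem_support_iff.2 h1
  have h3 : Finsupp.linearCombination k f v = v (degv v) • f (degv v) +
      ∑ m ∈ v.support.erase (degv v), v m • f m := by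
    rw [Finsupp.linearCombination_apply, Finsupp.sum]
    exact (Finset.add_sum_erase v.support (fun m => v m • f m) hd).symm
  rw [h3]
  refine ((hf _).smul h1).add (Submodule.sum_mem _ fun m hm => Submodule.smul_mem _ _ ?_)
  rw [Finset.mem_erase] at hm
  have h4 : m ≤ degv v - 1 := by
    have h5 : ¬ degv v < m := fun h => (Finsupp.mem_support_iff.1 hm.2) (h2 m h)
    have h6 := hm.1
    omega
  exact c.mono h4 (hf m).1

/-- `c_i = span (f_l : l ≤ i)`. Let `v ∈ c_i`, `v ≠ 0`, `a = ord v - 1` (so `v ∈ M a`), `v` at level `l ≤ i`; subtract the multiple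
of `f_l` which puts `v` into `c_{l-1}`; `ord f_l = w(l) ≥ ord v`, so we stay in `M a`; `c_l ⊓ M a = 0` for
`l ≤ a - N`. -/
theorem span_adapted (c : Cham k n) (f : ℤ → E k) (hf : ∀ i, c.At i (f i))
    (ho : ∀ i, ordv (f i) = ww (vOrd k n) c i) (i : ℤ) :
    (L k i).map (Finsupp.linearCombination k f) = c.c i := by
  apply le_antisymm
  · rintro _ ⟨v, hv, rfl⟩
    rw [Finsupp.linearCombination_apply, Finsupp.sum]
    refine Submodule.sum_mem _ fun m hm => Submodule.smul_mem _ _ ?_
    have h4 : m ≤ i := by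
      by_contra hcon
      exact (Finsupp.mem_support_iff.1 hm) (hv m (not_le.1 hcon))
    exact c.mono h4 (hf m).1
  · obtain ⟨N, hN⟩ := c.bdd
    have key : ∀ (m : ℕ) (a i : ℤ) (v : E k), v ∈ c.c i → v ∈ M k a → i ≤ a - N + m →
        v ∈ (L k i).map (Finsupp.linearCombination k f) := by
      intro m
      induction m with
      | zero =>
        intro a i v hv hva hi
        have h1 : v ∈ L k (i + N) := (hN i).2 hv
        have h2 : v = 0 := by
          ext b
          rcases le_or_gt b a with h | h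
          · exact hva b h
          · exact h1 b (by push_cast at hi; omega)
        rw [h2]
        exact Submodule.zero_mem _
      | succ m ih =>
        intro a i v hv hva hi
        by_cases h1 : v ∈ c.c (i - 1)
        · exact Submodule.map_mono (L_mono k (by omega))
            (ih a (i - 1) v h1 hva (by push_cast at hi; omega))
        · have hat : c.At i v := ⟨hv, h1⟩
          obtain ⟨l, hl, hlm⟩ := c.exch hat (hf i)
          have h2 : ordv v ≤ ww (vOrd k n) c i := le_ww (vOrd k n) c hat
          have h3 : f i ∈ M k a := by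
            rw [mem_M_iff_ordv (hf i).ne_zero, ho i]
            exact lt_of_lt_of_le ((mem_M_iff_ordv hat.ne_zero a).1 hva) h2
          have h4 : v - l • f i ∈ M k a := Submodule.sub_mem _ hva (Submodule.smul_mem _ _ h3)
          obtain ⟨u, hu, huv⟩ := ih a (i - 1) _ hlm h4 (by push_cast at hi; omega)
          refine ⟨u + Finsupp.single i l, Submodule.add_mem _ (L_mono k (by omega) hu) ?_, ?_⟩
          · intro b hb
            exact Finsupp.single_eq_of_ne (by omega)
          · rw [map_add, huv, Finsupp.linearCombination_single, sub_add_cancel]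
    intro v hv
    by_cases hv0 : v = 0
    · rw [hv0]
      exact Submodule.zero_mem _
    · refine key (i - (ordv v - 1) + N).toNat (ordv v - 1) i v hv ?_ ?_
      · rw [mem_M_iff_ordv hv0]
        omega
      · have := Int.self_le_toNat (i - (ordv v - 1) + N)
        omega

end Vale.P067.C
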