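import Vale.Agent.Lib.P067.C.Adapt

/-!
# P067 part C: adapted automorphisms (C7)
-/

namespace Vale.P067.C

open scoped Classical

variable {k : Type*} [Field k] {n : ℕ}

/-- adapted automorphism -/
structure Adapted (c : Cham k n) (g : E k ≃ₗ[k] E k) : Prop where
  comm : ∀ v, g (sh k n v) = sh k n (g v)
  lead : ∀ i, g (ee k i) (ww (vOrd k n) c i) = 1
  ord : ∀ v, v ≠ 0 → ∃ l, v l ≠ 0 ∧ ordv (g v) = ww (vOrd k n) c l ∧
    ∀ m, v m ≠ 0 → ww (vOrd k n) c l ≤ ww (vOrd k n) c m
  map : ∀ i, (L k i).map (g : E k →ₗ[k] E k) = c.c i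

private theorem adapt2_lc_ee (f : ℤ → E k) (i : ℤ) :
    Finsupp.linearCombination k f (ee k i) = f i := by
  rw [ee, Finsupp.linearCombination_single, one_smul]

private theorem adapt2_sh_ee (l b : ℤ) : sh k l (ee k b) = ee k (b + l) := by
  ext c
  rw [sh_apply]
  simp only [ee, Finsupp.single_apply]
  by_cases h : b = c - l
  · rw [if_pos h, if_pos (by omega)]
  · rw [if_neg h, if_neg (by omega)]

theorem exists_adapted (hn : 0 < n) (c : Cham k n) : ∃ g : E k ≃ₗ[k] E k, Adapted c g := by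
  obtain ⟨f, hf, ho, hl, hsh⟩ := exists_adapted_vectors hn c
  have hinj : Function.Injective (Finsupp.linearCombination k f) := by
    rw [← LinearMap.ker_eq_bot, LinearMap.ker_eq_bot']
    intro v hv
    by_contra h0
    exact (at_adapted c f hf v h0).ne_zero hv
  have hsurj : Function.Surjective (Finsupp.linearCombination k f) := by
    intro w
    by_cases hw : w = 0
    · exact ⟨0, by rw [hw, map_zero]⟩
    · obtain ⟨i, hi⟩ := c.exists_level hw
      have h1 := hi.1
      rw [← span_adapted c f hf ho i] at h1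
      obtain ⟨v, _, hv⟩ := h1
      exact ⟨v, hv⟩
  set g : E k ≃ₗ[k] E k := LinearEquiv.ofBijective (Finsupp.linearCombination k f) ⟨hinj, hsurj⟩
    with hg
  have hgv : ∀ v, g v = Finsupp.linearCombination k f v := fun v => rfl
  refine ⟨g, ?_, ?_, ?_, ?_⟩
  · intro v
    have h1 : (g : E k →ₗ[k] E k) ∘ₗ (sh k n : E k →ₗ[k] E k)
        = (sh k n : E k →ₗ[k] E k) ∘ₗ (g : E k →ₗ[k] E k) := by
      refine Finsupp.lhom_ext' fun i => LinearMap.ext_ring ?_
      change g (sh k n (ee k i)) = sh k n (g (ee k i))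
      rw [adapt2_sh_ee, hgv, hgv, adapt2_lc_ee, adapt2_lc_ee, hsh]
    exact LinearMap.congr_fun h1 v
  · intro i
    rw [hgv, adapt2_lc_ee]
    exact hl i
  · intro v hv
    rw [hgv]
    exact ordv_adapted c f hf ho v hv
  · intro i
    exact span_adapted c f hf ho i

theorem Adapted.displ {c : Cham k n} {g : E k ≃ₗ[k] E k} (h : Adapted c g) :
    ∃ N : ℤ, ∀ i, L k (i - N) ≤ (L k i).map (g : E k →ₗ[k] E k) ∧
      (L k i).map (g : E k →ₗ[k] E k) ≤ L k (i + N) := by
  obtain ⟨N, hN⟩ := c.bdd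
  exact ⟨N, fun i => by rw [h.map i]; exact hN i⟩

/-- every chamber is the transport of a chamber by the adapted automorphism -/
theorem Adapted.exists_pre {c : Cham k n} {g : E k ≃ₗ[k] E k} (h : Adapted c g) (c' : Cham k n) :
    ∃ c'' : Cham k n, c''.map g h.comm h.displ = c' := by
  have hcomm : ∀ v, g.symm (sh k n v) = sh k n (g.symm v) := by
    intro v
    apply g.injective
    rw [h.comm, g.apply_symm_apply, g.apply_symm_apply]
  have hdispl : ∃ N : ℤ, ∀ i, L k (i - N) ≤ (L k i).map (g.symm : E k →ₗ[k] E k) ∧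
      (L k i).map (g.symm : E k →ₗ[k] E k) ≤ L k (i + N) := by
    obtain ⟨N, hN⟩ := h.displ
    refine ⟨N, fun i => ⟨fun v hv => ?_, ?_⟩⟩
    · have h1 : g v ∈ L k i := by
        have h2 := (hN (i - N)).2 ⟨v, hv, rfl⟩
        rwa [sub_add_cancel] at h2
      exact ⟨g v, h1, g.symm_apply_apply v⟩
    · rintro _ ⟨v, hv, rfl⟩
      have h2 := (hN (i + N)).1
      rw [add_sub_cancel_right] at h2
      obtain ⟨w, hw, hwv⟩ := h2 hv
      have h3 : g.symm v = w := by
        rw [← hwv]
        exact g.symm_apply_apply w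
      change g.symm v ∈ L k (i + N)
      rw [h3]
      exact hw
  refine ⟨c'.map g.symm hcomm hdispl, Cham.ext' fun i => ?_⟩
  change ((c'.c i).map (g.symm : E k →ₗ[k] E k)).map (g : E k →ₗ[k] E k) = c'.c i
  rw [← Submodule.map_comp]
  have h1 : (g : E k →ₗ[k] E k) ∘ₗ (g.symm : E k →ₗ[k] E k) = LinearMap.id := by
    refine LinearMap.ext fun v => ?_
    exact g.apply_symm_apply v
  rw [h1, Submodule.map_id]

end Vale.P067.C
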