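import Vale.Agent.Lib.P067.C.W

/-!
# P067 part C: the values on a block (C2)
-/

namespace Vale.P067.C

open scoped Classical

variable {k : Type*} [Field k] {n : ℕ}

theorem ww_image_sub (ν : Val k n) (c : Cham k n) {a b i : ℤ} (hi : i ∈ Finset.Ioc a b) :
    ∃ v : E k, v ∈ c.c b ∧ v ∉ c.c a ∧ ν.ν v = ww ν c i ∧
      ∀ u ∈ c.c a, ν.ν (v - u) ≤ ww ν c i := by
  rw [Finset.mem_Ioc] at hi
  obtain ⟨v, hv, hvw⟩ := ww_spec ν c i
  have hle : c.c a ≤ c.c (i - 1) := c.mono (by omega)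
  refine ⟨v, c.mono hi.2 hv.1, fun h => hv.2 (hle h), hvw, fun u hu => ?_⟩
  have h1 : c.At i (v + -u) := hv.add ((c.c (i - 1)).neg_mem (hle hu))
  rw [sub_eq_add_neg]
  exact le_ww ν c h1

theorem ww_image_sup (ν : Val k n) (c : Cham k n) {a b : ℤ} {j : ℤ} :
    ∀ (m : ℕ) (v : E k), v ∈ c.c (a + m) → a + m ≤ b → v ∉ c.c a → ν.ν v = j →
      (∀ u ∈ c.c a, ν.ν (v - u) ≤ j) → ∃ i ∈ Finset.Ioc a b, ww ν c i = j := by
  intro m
  induction m using Nat.strong_induction_on with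
  | _ m ih =>
    intro v hv hm hva hj hu
    obtain ⟨l, hal, hlm, hl⟩ := c.exists_level_between hva hv
    have hv0 : v ≠ 0 := hl.ne_zero
    rcases eq_or_lt_of_le (le_ww ν c hl) with h | h
    · exact ⟨l, Finset.mem_Ioc.2 ⟨hal, by omega⟩, by rw [← h, hj]⟩
    · obtain ⟨w, hw, hww⟩ := ww_spec ν c l
      obtain ⟨t, ht, htm⟩ := c.exch hl hw
      have hw0 : w ≠ 0 := hw.ne_zero
      have hnt : -t ≠ 0 := neg_ne_zero.2 ht
      have htw0 : (-t) • w ≠ 0 := smul_ne_zero hnt hw0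
      have hνtw : ν.ν ((-t) • w) = ww ν c l := by rw [ν.smul _ _ hnt, hww]
      have hkey : ∀ x : E k, x ≠ 0 → ν.ν x ≤ j →
          x - t • w ≠ 0 ∧ ν.ν (x - t • w) = ν.ν x := by
        intro x hx0 hx
        have := Val.add_eq n ν hx0 htw0 (by rw [hνtw]; omega)
        rw [neg_smul, ← sub_eq_add_neg] at this
        exact this
      obtain ⟨h1, h2⟩ := hkey v hv0 hj.le
      have hva' : v - t • w ∉ c.c a := by
        intro hmem
        have h3 := hu _ hmem
        rw [sub_sub_cancel] at h3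
        rw [ν.smul _ _ ht, hww] at h3
        omega
      have hlt : (l - 1 - a).toNat < m := by omega
      refine ih (l - 1 - a).toNat hlt (v - t • w) ?_ (by omega) hva' (by rw [h2, hj]) ?_
      · have : a + ((l - 1 - a).toNat : ℤ) = l - 1 := by omega
        rw [this]
        exact htm
      · intro u hua
        have hx0 : v - u ≠ 0 := by
          intro h0
          exact hva (by rw [sub_eq_zero.1 h0]; exact hua)
        obtain ⟨_, h5⟩ := hkey (v - u) hx0 (hu u hua)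
        rw [sub_right_comm, h5]
        exact hu u hua

theorem mem_ww_image (ν : Val k n) (c : Cham k n) {a b j : ℤ} :
    j ∈ (Finset.Ioc a b).image (ww ν c) ↔
      a ≤ b ∧ ∃ v : E k, v ∈ c.c b ∧ v ∉ c.c a ∧ ν.ν v = j ∧ ∀ u ∈ c.c a, ν.ν (v - u) ≤ j := by
  rw [Finset.mem_image]
  constructor
  · rintro ⟨i, hi, rfl⟩
    refine ⟨?_, ww_image_sub ν c hi⟩
    rw [Finset.mem_Ioc] at hi
    omega
  · rintro ⟨hab, v, hvb, hva, hj, hu⟩
    refine ww_image_sup ν c (b - a).toNat v ?_ (by omega) hva hj hu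
    have : a + ((b - a).toNat : ℤ) = b := by omega
    rw [this]
    exact hvb

/-- C2: the values on a block `(a, b]` only depend on `c_a` and `c_b`: both images are
`{j | ∃ v ∈ c_b ∖ c_a, ν v = j ∧ ∀ u ∈ c_a, ν (v - u) ≤ j}` -/
theorem ww_image (ν : Val k n) (c c' : Cham k n) (a b : ℤ) (ha : c.c a = c'.c a)
    (hb : c.c b = c'.c b) :
    (Finset.Ioc a b).image (ww ν c) = (Finset.Ioc a b).image (ww ν c') := by
  ext j
  rw [mem_ww_image, mem_ww_image, ha, hb]

theorem ww_sum (ν : Val k n) (c c' : Cham k n) (a b : ℤ) (ha : c.c a = c'.c a)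
    (hb : c.c b = c'.c b) (F : ℤ → ℤ) :
    ∑ i ∈ Finset.Ioc a b, F (ww ν c i) = ∑ i ∈ Finset.Ioc a b, F (ww ν c' i) := by
  rw [← Finset.sum_image (f := F) (fun x _ y _ h => ww_inj ν c h),
    ← Finset.sum_image (f := F) (fun x _ y _ h => ww_inj ν c' h), ww_image ν c c' a b ha hb]

end Vale.P067.C
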