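import Vale.Agent.Lib.P067.C.Val

/-!
# P067 part C: chambers (periodic complete flags of lattices in `E`)
-/

namespace Vale.P067.C

open scoped Classical

variable (k : Type*) [Field k] (n : ℕ)

/-- chambers -/
structure Cham where
  c : ℤ → Submodule k (E k)
  covby : ∀ i, c i ⋖ c (i + 1)
  per : ∀ i, (c i).map (sh k n : E k →ₗ[k] E k) = c (i + n)
  bdd : ∃ N : ℤ, ∀ i, L k (i - N) ≤ c i ∧ c i ≤ L k (i + N)

variable {k n}

theorem Cham.ext' {c c' : Cham k n} (h : ∀ i, c.c i = c'.c i) : c = c' := by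
  cases c
  cases c'
  have h1 := funext h
  simp only at h1
  subst h1
  rfl

theorem Cham.mono (c : Cham k n) {i j : ℤ} (h : i ≤ j) : c.c i ≤ c.c j :=
  monotone_int_of_le_succ (fun i => (c.covby i).le) h

/-- `v ∈ c_i ∖ c_{i-1}` -/
def Cham.At (c : Cham k n) (i : ℤ) (v : E k) : Prop := v ∈ c.c i ∧ v ∉ c.c (i - 1)

theorem Cham.At.ne_zero {c : Cham k n} {i : ℤ} {v : E k} (h : c.At i v) : v ≠ 0 := by
  rintro rfl
  exact h.2 (Submodule.zero_mem _)

private theorem Cham.covby' (c : Cham k n) (i : ℤ) : c.c (i - 1) ⋖ c.c i := by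
  have h := c.covby (i - 1)
  rwa [sub_add_cancel] at h

theorem Cham.exists_at (c : Cham k n) (i : ℤ) : ∃ v, c.At i v := by
  obtain ⟨v, hv, hv'⟩ := SetLike.exists_of_lt (c.covby' i).lt
  exact ⟨v, hv, hv'⟩

/-- `c_i = c_{i-1} + k v` for `v ∈ c_i ∖ c_{i-1}` -/
theorem Cham.eq_sup (c : Cham k n) {i : ℤ} {v : E k} (h : c.At i v) :
    c.c i = c.c (i - 1) ⊔ Submodule.span k {v} := by
  have h1 : c.c (i - 1) ⊔ Submodule.span k {v} ≤ c.c i := by
    refine sup_le (c.covby' i).le ?_
    rw [Submodule.span_singleton_le_iff_mem]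
    exact h.1
  have h2 : c.c (i - 1) < c.c (i - 1) ⊔ Submodule.span k {v} := by
    refine lt_of_le_of_ne le_sup_left fun h3 => h.2 ?_
    rw [h3]
    exact Submodule.mem_sup_right (Submodule.mem_span_singleton_self v)
  rcases h1.lt_or_eq with h3 | h3
  · exact absurd h3 ((c.covby' i).2 h2)
  · exact h3.symm

/-- one dimensionality of `c_i / c_{i-1}` -/
theorem Cham.exch (c : Cham k n) {i : ℤ} {v w : E k} (hv : c.At i v) (hw : c.At i w) :
    ∃ l : k, l ≠ 0 ∧ v - l • w ∈ c.c (i - 1) := by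
  have h1 := hv.1
  rw [c.eq_sup hw, Submodule.mem_sup] at h1
  obtain ⟨u, hu, y, hy, huy⟩ := h1
  obtain ⟨l, rfl⟩ := Submodule.mem_span_singleton.1 hy
  have h2 : v - l • w = u := by rw [← huy]; abel
  refine ⟨l, ?_, h2 ▸ hu⟩
  rintro rfl
  rw [zero_smul, sub_zero] at h2
  exact hv.2 (h2 ▸ hu)

theorem Cham.At.smul {c : Cham k n} {i : ℤ} {v : E k} (h : c.At i v) {l : k} (hl : l ≠ 0) :
    c.At i (l • v) :=
  ⟨Submodule.smul_mem _ _ h.1, fun h1 => h.2 ((Submodule.smul_mem_iff _ hl).1 h1)⟩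

/-- `At i` is stable under adding elements of `c_{i-1}` -/
theorem Cham.At.add {c : Cham k n} {i : ℤ} {v w : E k} (h : c.At i v) (hw : w ∈ c.c (i - 1)) :
    c.At i (v + w) :=
  ⟨Submodule.add_mem _ h.1 ((c.covby' i).le hw), fun h1 => h.2 (by
    have h2 := Submodule.sub_mem _ h1 hw
    rwa [add_sub_cancel_right] at h2)⟩

theorem Cham.exists_level_between (c : Cham k n) {v : E k} {a b : ℤ} (h1 : v ∉ c.c a)
    (h2 : v ∈ c.c b) : ∃ i, a < i ∧ i ≤ b ∧ c.At i v := by
  have hab : a < b := by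
    by_contra h3
    exact h1 (c.mono (not_lt.1 h3) h2)
  obtain ⟨m, hm⟩ : ∃ m : ℕ, b = a + m := ⟨(b - a).toNat, by omega⟩
  induction m generalizing b with
  | zero => omega
  | succ m ih =>
    by_cases h3 : v ∈ c.c (b - 1)
    · by_cases h4 : a < b - 1
      · obtain ⟨i, hi1, hi2, hi3⟩ := ih (b := b - 1) h3 h4 (by push_cast at hm; omega)
        exact ⟨i, hi1, by omega, hi3⟩
      · have h5 : b - 1 = a := by omega
        rw [h5] at h3
        exact absurd h3 h1
    · exact ⟨b, hab, le_rfl, h2, h3⟩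

/-- every nonzero vector has a level -/
theorem Cham.exists_level (c : Cham k n) {v : E k} (hv : v ≠ 0) : ∃ i, c.At i v := by
  obtain ⟨N, hN⟩ := c.bdd
  have h1 : v ∉ c.c (degv v - 1 - N) := by
    intro h
    have h2 := (hN (degv v - 1 - N)).2 h
    rw [mem_L_iff_degv hv] at h2
    omega
  have h2 : v ∈ c.c (degv v + N) := by
    refine (hN (degv v + N)).1 ?_
    rw [mem_L_iff_degv hv]
    omega
  obtain ⟨i, -, -, hi⟩ := c.exists_level_between h1 h2
  exact ⟨i, hi⟩

theorem Cham.level_unique (c : Cham k n) {v : E k} {i j : ℤ} (hi : c.At i v) (hj : c.At j v) :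
    i = j := by
  rcases lt_trichotomy i j with h | h | h
  · exact absurd (c.mono (by omega) hi.1) hj.2
  · exact h
  · exact absurd (c.mono (by omega) hj.1) hi.2

private theorem Cham.sh_add_apply (a b : ℤ) (v : E k) :
    sh k (a + b) v = sh k a (sh k b v) := by
  ext x
  rw [sh_apply, sh_apply, sh_apply]
  congr 1
  ring

private theorem Cham.map_sh_add (a b : ℤ) (W : Submodule k (E k)) :
    W.map (sh k (a + b) : E k →ₗ[k] E k) =
      (W.map (sh k b : E k →ₗ[k] E k)).map (sh k a : E k →ₗ[k] E k) := by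
  rw [← Submodule.map_comp]
  congr 1
  refine LinearMap.ext fun v => ?_
  exact Cham.sh_add_apply a b v

private theorem Cham.map_sh_zero (W : Submodule k (E k)) :
    W.map (sh k 0 : E k →ₗ[k] E k) = W := by
  have h : (sh k 0 : E k →ₗ[k] E k) = LinearMap.id := by
    refine LinearMap.ext fun v => ?_
    ext x
    change sh k 0 v x = v x
    rw [sh_apply, sub_zero]
  rw [h, Submodule.map_id]

theorem Cham.per_zsmul (c : Cham k n) (i m : ℤ) :
    (c.c i).map (sh k (m * n) : E k →ₗ[k] E k) = c.c (i + m * n) := by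
  have key : ∀ (m : ℕ) (i : ℤ),
      (c.c i).map (sh k ((m : ℤ) * n) : E k →ₗ[k] E k) = c.c (i + m * n) := by
    intro m
    induction m with
    | zero =>
      intro i
      simp only [Nat.cast_zero, zero_mul, add_zero]
      exact Cham.map_sh_zero _
    | succ m ih =>
      intro i
      have h1 : ((m + 1 : ℕ) : ℤ) * n = n + m * n := by push_cast; ring
      rw [h1, Cham.map_sh_add, ih, c.per]
      congr 1
      ring
  rcases le_total 0 m with h | h
  · obtain ⟨l, rfl⟩ := Int.eq_ofNat_of_zero_le h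
    exact key l i
  · obtain ⟨l, hl⟩ := Int.eq_ofNat_of_zero_le (neg_nonneg.2 h)
    have hm : m = -(l : ℤ) := by omega
    have h2 := key l (i + m * n)
    have h3 : i + m * n + l * n = i := by rw [hm]; ring
    rw [h3] at h2
    rw [← h2, ← Cham.map_sh_add]
    have h4 : m * (n : ℤ) + l * n = 0 := by rw [hm]; ring
    rw [h4]
    exact Cham.map_sh_zero _

theorem Cham.at_sh (c : Cham k n) (i m : ℤ) (v : E k) :
    c.At (i + m * n) (sh k (m * n) v) ↔ c.At i v := by
  unfold Cham.At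
  have h1 : i + m * n - 1 = (i - 1) + m * n := by ring
  rw [h1, ← c.per_zsmul i m, ← c.per_zsmul (i - 1) m]
  have h2 : ∀ W : Submodule k (E k),
      sh k (m * n) v ∈ W.map (sh k (m * n) : E k →ₗ[k] E k) ↔ v ∈ W := by
    intro W
    constructor
    · rintro ⟨w, hw, hwv⟩
      have : w = v := (sh k (m * n)).injective hwv
      exact this ▸ hw
    · intro hv
      exact ⟨v, hv, rfl⟩
  rw [h2, h2]

/-- chambers agreeing at all residues agree -/
theorem Cham.ext_res (hn : 0 < n) {c c' : Cham k n} (h : ∀ s : Fin n, c.c (s : ℕ) = c'.c (s : ℕ)) :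
    c = c' := by
  refine Cham.ext' fun i => ?_
  have hn' : (0 : ℤ) < n := by exact_mod_cast hn
  have h0 := Int.emod_nonneg i hn'.ne'
  have h1 := Int.emod_lt_of_pos i hn'
  obtain ⟨s, hs⟩ := Int.eq_ofNat_of_zero_le h0
  have hs' : s < n := by omega
  have h2 := h ⟨s, hs'⟩
  simp only at h2
  have h3 : i = (s : ℤ) + (i / n) * n := by
    rw [← hs]
    have := Int.emod_add_mul_ediv i n
    linarith
  rw [h3, ← c.per_zsmul, ← c'.per_zsmul, h2]

end Vale.P067.C
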