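import Vale.Agent.Lib.P067.C.Cham

/-!
# P067 part C: standard chamber, transport and replacement
-/

namespace Vale.P067.C

open scoped Classical

variable {k : Type*} [Field k] {n : ℕ}

private theorem Cham2_L_covBy (k : Type*) [Field k] (i : ℤ) : L k i ⋖ L k (i + 1) := by
  refine ⟨lt_of_le_of_ne (L_mono k (by omega)) ?_, ?_⟩
  · intro h
    have h1 : ee k (i + 1) ∈ L k (i + 1) := ee_mem_L le_rfl
    rw [← h] at h1
    have h2 := h1 (i + 1) (by omega)
    simp [ee] at h2
  · intro W h1 h2
    obtain ⟨w, hwW, hwL⟩ := SetLike.exists_of_lt h1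
    have hw1 : w ∈ L k (i + 1) := h2.le hwW
    have hw2 : w (i + 1) ≠ 0 := by
      intro h0
      apply hwL
      intro b hb
      rcases eq_or_ne b (i + 1) with rfl | hne
      · exact h0
      · exact hw1 b (by omega)
    apply h2.not_ge
    intro v hv
    have h3 : v - (v (i + 1) / w (i + 1)) • w ∈ L k i := by
      intro b hb
      rcases eq_or_ne b (i + 1) with rfl | hne
      · simp only [Finsupp.coe_sub, Pi.sub_apply, Finsupp.coe_smul, Pi.smul_apply, smul_eq_mul]
        rw [div_mul_cancel₀ _ hw2, sub_self]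
      · simp only [Finsupp.coe_sub, Pi.sub_apply, Finsupp.coe_smul, Pi.smul_apply, smul_eq_mul]
        rw [hv b (by omega), hw1 b (by omega), mul_zero, sub_zero]
    have h4 := W.add_mem (h1.le h3) (W.smul_mem (v (i + 1) / w (i + 1)) hwW)
    simpa using h4

private theorem Cham2_map_covBy (g : E k ≃ₗ[k] E k) {A B : Submodule k (E k)} (h : A ⋖ B) :
    A.map (g : E k →ₗ[k] E k) ⋖ B.map (g : E k →ₗ[k] E k) := by
  have h1 := (apply_covBy_apply_iff (Submodule.orderIsoMapComap g)).2 h
  exact h1

private theorem Cham2_sh_sh (a b : ℤ) (A : Submodule k (E k)) :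
    (A.map (sh k a : E k →ₗ[k] E k)).map (sh k b : E k →ₗ[k] E k) =
      A.map (sh k (a + b) : E k →ₗ[k] E k) := by
  rw [← Submodule.map_comp]
  congr 1
  refine LinearMap.ext fun v => ?_
  refine Finsupp.ext fun x => ?_
  change sh k b (sh k a v) x = sh k (a + b) v x
  rw [sh_apply, sh_apply, sh_apply]
  congr 1
  ring

private theorem Cham2_sh_zero (A : Submodule k (E k)) :
    A.map (sh k 0 : E k →ₗ[k] E k) = A := by
  have : (sh k 0 : E k →ₗ[k] E k) = LinearMap.id := by
    refine LinearMap.ext fun v => ?_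
    refine Finsupp.ext fun x => ?_
    change sh k 0 v x = v x
    rw [sh_apply, sub_zero]
  rw [this, Submodule.map_id]

/-- standard chamber -/
noncomputable def Cham.std (k : Type*) [Field k] (n : ℕ) : Cham k n where
  c := L k
  covby := by
    intro i
    exact Cham2_L_covBy k i
  per := fun i => L_add i n
  bdd := ⟨0, fun i => ⟨le_of_eq (by rw [sub_zero]), le_of_eq (by rw [add_zero])⟩⟩

/-- transport of a chamber by a linear automorphism `g` commuting with the shift, with bounded
displacement: `L (i - N) ≤ g (L i) ≤ L (i + N)` -/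
noncomputable def Cham.map (c : Cham k n) (g : E k ≃ₗ[k] E k) (h1 : ∀ v, g (sh k n v) = sh k n (g v))
    (h2 : ∃ N : ℤ, ∀ i, L k (i - N) ≤ (L k i).map (g : E k →ₗ[k] E k) ∧
      (L k i).map (g : E k →ₗ[k] E k) ≤ L k (i + N)) : Cham k n where
  c := fun i => (c.c i).map (g : E k →ₗ[k] E k)
  covby := by
    intro i
    exact Cham2_map_covBy g (c.covby i)
  per := by
    intro i
    rw [← c.per i, ← Submodule.map_comp, ← Submodule.map_comp]
    congr 1
    refine LinearMap.ext fun v => ?_
    exact (h1 v).symm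
  bdd := by
    obtain ⟨N, hN⟩ := h2
    obtain ⟨N', hN'⟩ := c.bdd
    refine ⟨N' + N, fun i => ⟨?_, ?_⟩⟩
    · have e1 := (hN (i - N')).1
      have e2 := Submodule.map_mono (f := (g : E k →ₗ[k] E k)) (hN' i).1
      rw [show i - (N' + N) = i - N' - N by ring]
      exact e1.trans e2
    · have e1 := (hN (i + N')).2
      have e2 := Submodule.map_mono (f := (g : E k →ₗ[k] E k)) (hN' i).2
      rw [show i + (N' + N) = i + N' + N by ring]
      exact e2.trans e1

/-- replace the members of index `≡ i` -/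
theorem Cham.replace (hn : 2 ≤ n) (c : Cham k n) (i : ℤ) (W : Submodule k (E k))
    (h1 : c.c (i - 1) ⋖ W) (h2 : W ⋖ c.c (i + 1)) :
    ∃ c' : Cham k n, c'.c i = W ∧ ∀ l, ¬ l ≡ i [ZMOD n] → c'.c l = c.c l := by
  have hmod : ∀ l : ℤ, l ≡ i [ZMOD n] → ∃ m : ℤ, l = i + m * n := by
    intro l hl
    obtain ⟨m, hm⟩ := Int.modEq_iff_dvd.1 hl
    exact ⟨-m, by linear_combination (-1 : ℤ) * hm⟩
  -- the new family
  set C : ℤ → Submodule k (E k) := fun l =>
    if l ≡ i [ZMOD n] then W.map (sh k (l - i) : E k →ₗ[k] E k) else c.c l with hC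
  have hCpos : ∀ l, l ≡ i [ZMOD n] → C l = W.map (sh k (l - i) : E k →ₗ[k] E k) := fun l hl => by
    simp only [hC, if_pos hl]
  have hCneg : ∀ l, ¬ l ≡ i [ZMOD n] → C l = c.c l := fun l hl => by
    simp only [hC, if_neg hl]
  have hsucc : ∀ l : ℤ, l ≡ i [ZMOD n] → ¬ l + 1 ≡ i [ZMOD n] := by
    intro l hl hl'
    have h3 := Int.modEq_iff_dvd.1 (hl.trans hl'.symm)
    have h4 : l + 1 - l = 1 := by ring
    rw [h4] at h3
    have h5 := Int.le_of_dvd one_pos h3
    omega
  have hcov : ∀ l, C l ⋖ C (l + 1) := by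
    intro l
    by_cases hl : l ≡ i [ZMOD n]
    · rw [hCpos l hl, hCneg _ (hsucc l hl)]
      obtain ⟨m, rfl⟩ := hmod l hl
      have e1 := c.per_zsmul (i + 1) m
      rw [show i + m * (n : ℤ) + 1 = i + 1 + m * n by ring, ← e1,
        show i + m * (n : ℤ) - i = m * n by ring]
      exact Cham2_map_covBy _ h2
    · by_cases hl' : l + 1 ≡ i [ZMOD n]
      · rw [hCneg l hl, hCpos _ hl']
        obtain ⟨m, hm⟩ := hmod _ hl'
        have e1 := c.per_zsmul (i - 1) m
        rw [show l = i - 1 + m * n by linear_combination hm, ← e1,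
          show i - 1 + m * (n : ℤ) + 1 - i = m * n by ring]
        exact Cham2_map_covBy _ h1
      · rw [hCneg l hl, hCneg _ hl']
        exact c.covby l
  have hper : ∀ l, (C l).map (sh k n : E k →ₗ[k] E k) = C (l + n) := by
    intro l
    have hiff : l + n ≡ i [ZMOD n] ↔ l ≡ i [ZMOD n] := by
      constructor
      · intro h
        have h3 : l ≡ l + n [ZMOD n] := by
          rw [Int.modEq_iff_dvd]
          exact ⟨1, by ring⟩
        exact h3.trans h
      · intro h
        have h3 : l + n ≡ l [ZMOD n] := by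
          rw [Int.modEq_iff_dvd]
          exact ⟨-1, by ring⟩
        exact h3.trans h
    by_cases hl : l ≡ i [ZMOD n]
    · rw [hCpos l hl, hCpos _ (hiff.2 hl), Cham2_sh_sh]
      rw [show l - i + (n : ℤ) = l + n - i by ring]
    · rw [hCneg l hl, hCneg _ (fun h => hl (hiff.1 h))]
      exact c.per l
  have hbdd : ∃ N : ℤ, ∀ l, L k (l - N) ≤ C l ∧ C l ≤ L k (l + N) := by
    obtain ⟨N, hN⟩ := c.bdd
    refine ⟨N + 1, fun l => ?_⟩
    by_cases hl : l ≡ i [ZMOD n]
    · have e1 := hcov l
      rw [hCneg _ (hsucc l hl)] at e1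
      have hpred : ¬ l - 1 ≡ i [ZMOD n] := by
        intro h
        have h3 := hsucc _ h
        rw [sub_add_cancel] at h3
        exact h3 hl
      have e2 := hcov (l - 1)
      rw [sub_add_cancel, hCneg _ hpred] at e2
      refine ⟨?_, ?_⟩
      · have e3 := (hN (l - 1)).1
        rw [show l - (N + 1) = l - 1 - N by ring]
        exact e3.trans e2.le
      · have e3 := (hN (l + 1)).2
        rw [show l + (N + 1) = l + 1 + N by ring]
        exact e1.le.trans e3
    · rw [hCneg l hl]
      exact ⟨(L_mono k (by omega)).trans (hN l).1, (hN l).2.trans (L_mono k (by omega))⟩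
  refine ⟨⟨C, hcov, hper, hbdd⟩, ?_, hCneg⟩
  show C i = W
  rw [hCpos i (Int.ModEq.refl i), sub_self, Cham2_sh_zero]

end Vale.P067.C
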