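import Vale.Agent.Lib.P067.C.Sort

/-!
# P067 part C: sorted chambers are the minimal ones (P1, P2)
-/

namespace Vale.P067.C

open scoped Classical

variable {k : Type*} [Field k] {n : ℕ}

/-- the block data of a residue -/
theorem s2_block (hn : 0 < n) (ν : Val k n) {c c' : Cham k n} {T : Finset (Fin n)}
    (hT : T ≠ Finset.univ) (h : Agree T c c') (hc : Sorted ν c T) (hc' : Sorted ν c' T) (i : ℤ) :
    ∃ a b : ℤ, a < i ∧ i ≤ b ∧ c.c a = c'.c a ∧ c.c b = c'.c b ∧
      (∀ l, a < l → l < b → uu ν c l < uu ν c (l + 1)) ∧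
      (∀ l, a < l → l < b → uu ν c' l < uu ν c' (l + 1)) := by
  obtain ⟨a, b, hai, hib, _, ⟨s, m, hs, has⟩, ⟨t, m', ht, hbt⟩, hl⟩ := exists_block hn T hT i
  refine ⟨a, b, hai, hib, ?_, ?_, ?_, ?_⟩
  · rw [has]
    exact h.at_int hs m
  · rw [hbt]
    exact h.at_int ht m'
  · intro l h1 h2
    obtain ⟨r, q, hr, hlr⟩ := hl l h1 h2
    rw [hlr]
    exact hc.at_int hr q
  · intro l h1 h2
    obtain ⟨r, q, hr, hlr⟩ := hl l h1 h2
    rw [hlr]
    exact hc'.at_int hr q

theorem s2_strict (f : ℤ → ℤ) {a b : ℤ} (hf : ∀ l, a < l → l < b → f l < f (l + 1)) {j : ℤ}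
    (hj : a < j) : ∀ l, j + 1 ≤ l → l ≤ b → f j < f l := by
  intro l hl
  induction l, hl using Int.le_induction with
  | base =>
    intro hb
    exact hf j hj (by omega)
  | succ m hm ih =>
    intro hb
    exact (ih (by omega)).trans (hf m (by omega) (by omega))

/-- sorted chambers of a residue have the same values -/
theorem sorted_uu_eq (hn : 2 ≤ n) (ν : Val k n) {c c' : Cham k n} {T : Finset (Fin n)}
    (hT : T ≠ Finset.univ) (h : Agree T c c') (hc : Sorted ν c T) (hc' : Sorted ν c' T) (i : ℤ) :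
    uu ν c i = uu ν c' i := by
  obtain ⟨a, b, hai, hib, ha, hb, h1, h2⟩ := s2_block (by omega) ν hT h hc hc' i
  exact eq_of_image_eq (uu ν c) (uu ν c') a b h1 h2 (uu_image ν c c' a b ha hb) i hai hib

/-- P1: sorted chambers are exactly the minimal ones of the residue -/
theorem sorted_iff_min (hn : 2 ≤ n) (ν : Val k n) {c : Cham k n} {T : Finset (Fin n)}
    (hT : T ≠ Finset.univ) : Sorted ν c T ↔ ∀ c' : Cham k n, Agree T c c' → lvl ν c ≤ lvl ν c' := by
  constructor
  · intro hc c' h
    obtain ⟨c'', h1, h2, h3⟩ := exists_sorted hn ν c' T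
    have h4 : uu ν c = uu ν c'' := funext fun i =>
      sorted_uu_eq hn ν hT (h.trans h1) hc h2 i
    have h5 : lvl ν c = lvl ν c'' := by
      unfold lvl
      rw [h4]
    rw [h5]
    exact h3
  · intro hmin s hs
    by_contra hlt
    have h1 : uu ν c ((s : ℕ) + 1) ≤ uu ν c (s : ℕ) := not_lt.1 hlt
    have h2 : uu ν c ((s : ℕ) + 1) ≠ uu ν c (s : ℕ) := by
      intro h3
      have := uu_inj ν c h3
      omega
    obtain ⟨c', h3, h4⟩ := swap_lvl hn ν c s (lt_of_le_of_ne h1 h2)
    have h5 : Agree T c c' := by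
      intro t ht
      refine h3 t ?_
      intro h6
      rw [Finset.mem_singleton] at h6
      exact ht (h6 ▸ hs)
    have h6 := hmin c' h5
    omega

/-- P2: for `-deg` the sorted chamber of a residue is unique. Proof: go up in a block `(a, b]`, `c_a = c'_a`:
let `c_{i-1} = c'_{i-1}`, `v' ∈ c'_i ∖ c'_{i-1}` with `deg v' = u(i)` (the same `u` for `c` and `c'`). If `v' ∉ c_i` then
`v' ∈ c_l ∖ c_{l-1}` with `i < l ≤ b` and `deg v' = u(i) < u(l) =` least degree on `c_l ∖ c_{l-1}`: contradiction. So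
`v' ∈ c_i ∖ c_{i-1}` and `c'_i = c'_{i-1} + k v' = c_i`. -/
theorem sorted_unique_deg (hn : 2 ≤ n) {c c' : Cham k n} {T : Finset (Fin n)}
    (hT : T ≠ Finset.univ) (h : Agree T c c') (hc : Sorted (vDeg k n) c T)
    (hc' : Sorted (vDeg k n) c' T) : c = c' := by
  refine Cham.ext' fun i => ?_
  obtain ⟨a, b, hai, hib, ha, hb, h1, _⟩ := s2_block (by omega) (vDeg k n) hT h hc hc' i
  have hu : ∀ j, uu (vDeg k n) c j = uu (vDeg k n) c' j := fun j =>
    sorted_uu_eq hn (vDeg k n) hT h hc hc' j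
  have key : ∀ j, a ≤ j → j ≤ b → c.c j = c'.c j := by
    intro j hj
    induction j, hj using Int.le_induction with
    | base =>
      intro _
      exact ha
    | succ m hm ih =>
      intro hmb
      have hm1 := ih (by omega)
      obtain ⟨v, hv1, hv2⟩ := ww_spec (vDeg k n) c' (m + 1)
      have e1 : m + 1 - 1 = m := by ring
      have hvn : v ∉ c.c m := by
        rw [hm1]
        have := hv1.2
        rw [e1] at this
        exact this
      have hvm : v ∈ c.c (m + 1) := by
        by_contra hvm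
        have hvb : v ∈ c.c b := by
          rw [hb]
          exact c'.mono hmb hv1.1
        obtain ⟨l, hl1, hl2, hl3⟩ := c.exists_level_between hvm hvb
        have h5 := le_ww (vDeg k n) c hl3
        have h6 := s2_strict (uu (vDeg k n) c) h1 (j := m + 1) (by omega) l (by omega) hl2
        have h7 := hu (m + 1)
        have h8 : uu (vDeg k n) c l = -1 * ww (vDeg k n) c l := rfl
        have h9 : uu (vDeg k n) c' (m + 1) = -1 * ww (vDeg k n) c' (m + 1) := rfl
        omega
      have hat : c.At (m + 1) v := ⟨hvm, by rw [e1]; exact hvn⟩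
      rw [c.eq_sup hat, c'.eq_sup hv1, e1, hm1]
  exact key i hai.le hib

end Vale.P067.C
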