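import Vale.Agent.Lib.P067.C.Adapt2
import Vale.Agent.Lib.P067.C.Sort2

/-!
# P067 part C: sorted chambers of a residue correspond to opposite flags (C7, Claim)

`c` is sorted on `T ≠ univ`, `g` adapted to `c`, `c''` agrees with the standard chamber outside `T`.
Then `c''.map g` is sorted on `T` iff all `c''_i` are complements of `M_i`.

Take a block `(a, b]` (`exists_block`): `w = ww vOrd c` is strictly increasing on `(a, b]`,
`c''_a = L a`, `c''_b = L b`, `(g c'')_a = c_a`, `(g c'')_b = c_b`.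
(⇐) `i ∈ (a, b]`: `e_i = λ + μ`, `λ ∈ c''_i`, `μ ∈ M_i`; `μ ∈ L b` so `μ` has support in `(i, b]`; `λ ∉ c''_{i-1}`
(else `λ ∈ c''_{i-1} ⊓ M_{i-1} = 0`). `ord (g λ) = ord (f_i - g μ) = w(i)` by `Adapted.ord`. So `w_{g c''}(i) ≥ w(i)` for
all `i ∈ (a, b]`; equal sums (`ww_sum` with `F = id`), so equality.
(⇒) disjoint: `0 ≠ v ∈ c''_i ⊓ M_i`, `i < b` : `v ∈ L b`, support in `(i, b]`, `ord (g v) ≥ w(i+1) > w(i)`; but `g v` is at a level
`l ∈ (a, i]` of `g c''`, so `ord (g v) ≤ w_{g c''}(l) = w(l) ≤ w(i)` (`sorted_uu_eq`).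
codisjoint: by induction on `i` from `a` to `b`: `IsCompl (c''_{i-1}) (M_{i-1})`, `v` at level `i` of `c''`, subtract an
element of `c''_{i-1}`: `v ∈ M_{i-1}`, `v = α e_i + μ'`, `μ' ∈ M_i`, `α ≠ 0` (else `v ∈ c''_i ⊓ M_i`). So
`e_i ∈ c''_i ⊔ M_i`, and `c''_i ⊔ M_i ≥ c''_{i-1} ⊔ M_{i-1} = ⊤`.
-/

namespace Vale.P067.C

open scoped Classical

variable {k : Type*} [Field k] {n : ℕ}

/-- the inequality on a block -/
private theorem eqv_le {c : Cham k n} {g : E k ≃ₗ[k] E k} (hg : Adapted c g) {c'' : Cham k n}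
    (h : ∀ i, IsCompl (c''.c i) (M k i)) {b i : ℤ} (hb : c''.c b = L k b) (hib : i ≤ b)
    (hw : ∀ l, i + 1 ≤ l → l ≤ b → ww (vOrd k n) c i < ww (vOrd k n) c l) :
    ww (vOrd k n) c i ≤ ww (vOrd k n) (c''.map g hg.comm hg.displ) i := by
  have h1 : ee k i ∈ c''.c i ⊔ M k i := by
    rw [(h i).sup_eq_top]
    exact Submodule.mem_top
  obtain ⟨x, hx, y, hy, hxy⟩ := Submodule.mem_sup.1 h1
  have hxL : x ∈ L k b := by
    rw [← hb]
    exact c''.mono hib hx
  have hval : ∀ m : ℤ, x m + y m = ee k i m := by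
    intro m
    rw [← hxy, Finsupp.add_apply]
  have hxi : x i = 1 := by
    have h2 := hval i
    rw [hy i le_rfl, add_zero] at h2
    rw [h2]
    simp [ee]
  have hxlt : ∀ m, m < i → x m = 0 := by
    intro m hm
    have h2 := hval m
    rw [hy m hm.le, add_zero] at h2
    rw [h2]
    simp only [ee, Finsupp.single_apply]
    rw [if_neg (by omega)]
  have hx0 : x ≠ 0 := by
    rintro rfl
    simp at hxi
  have hxn : x ∉ c''.c (i - 1) := by
    intro hcon
    have h2 : x ∈ M k (i - 1) := fun m hm => hxlt m (by omega)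
    have h3 : x ∈ c''.c (i - 1) ⊓ M k (i - 1) := ⟨hcon, h2⟩
    rw [(h (i - 1)).inf_eq_bot, Submodule.mem_bot] at h3
    exact hx0 h3
  have hat : (c''.map g hg.comm hg.displ).At i (g x) := by
    refine ⟨⟨x, hx, rfl⟩, ?_⟩
    rintro ⟨z, hz, hzx⟩
    have h2 : z = x := g.injective hzx
    rw [h2] at hz
    exact hxn hz
  obtain ⟨l, hl0, hl1, -⟩ := hg.ord x hx0
  have hil : i ≤ l := by
    by_contra hcon
    exact hl0 (hxlt l (by omega))
  have hlb : l ≤ b := by
    by_contra hcon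
    exact hl0 (hxL l (by omega))
  have h4 : ww (vOrd k n) c i ≤ ww (vOrd k n) c l := by
    rcases eq_or_lt_of_le hil with h5 | h5
    · rw [h5]
    · exact (hw l (by omega) hlb).le
  have h6 : ordv (g x) ≤ ww (vOrd k n) (c''.map g hg.comm hg.displ) i := le_ww (vOrd k n) _ hat
  rw [hl1] at h6
  exact h4.trans h6

theorem sorted_of_isCompl (hn : 2 ≤ n) {c : Cham k n} {T : Finset (Fin n)} (hT : T ≠ Finset.univ)
    (hc : Sorted (vOrd k n) c T) {g : E k ≃ₗ[k] E k} (hg : Adapted c g) {c'' : Cham k n}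
    (h'' : Agree T (Cham.std k n) c'') (h : ∀ i, IsCompl (c''.c i) (M k i)) :
    Sorted (vOrd k n) (c''.map g hg.comm hg.displ) T := by
  intro s hs
  obtain ⟨a, b, has, hsb, -, ⟨s1, m1, hs1, ha1⟩, ⟨t1, m2, ht1, hb1⟩, hl⟩ :=
    exists_block (by omega) T hT ((s : ℕ) : ℤ)
  have hsb' : ((s : ℕ) : ℤ) < b := by
    refine lt_of_le_of_ne hsb fun h0 => ?_
    have h1 : ((s : ℕ) : ℤ) + 0 * n = (t1 : ℕ) + m2 * n := by
      rw [zero_mul, add_zero, h0]
      exact hb1
    exact ht1 ((res_unique h1).1 ▸ hs)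
  have huw : ∀ (d : Cham k n) (l : ℤ), uu (vOrd k n) d l = ww (vOrd k n) d l := by
    intro d l
    unfold uu
    change 1 * ww (vOrd k n) d l = _
    rw [one_mul]
  have hsort : ∀ l, a < l → l < b → ww (vOrd k n) c l < ww (vOrd k n) c (l + 1) := by
    intro l h1 h2
    obtain ⟨r, q, hr, hlr⟩ := hl l h1 h2
    rw [← huw, ← huw, hlr]
    exact hc.at_int hr q
  have hca : c''.c a = L k a := by
    rw [ha1]
    exact (h''.at_int hs1 m1).symm
  have hcb : c''.c b = L k b := by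
    rw [hb1]
    exact (h''.at_int ht1 m2).symm
  have hga : c.c a = (c''.map g hg.comm hg.displ).c a := by
    change c.c a = (c''.c a).map (g : E k →ₗ[k] E k)
    rw [hca, hg.map a]
  have hgb : c.c b = (c''.map g hg.comm hg.displ).c b := by
    change c.c b = (c''.c b).map (g : E k →ₗ[k] E k)
    rw [hcb, hg.map b]
  have hle : ∀ i ∈ Finset.Ioc a b,
      ww (vOrd k n) c i ≤ ww (vOrd k n) (c''.map g hg.comm hg.displ) i := by
    intro i hi
    rw [Finset.mem_Ioc] at hi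
    refine eqv_le hg h hcb hi.2 fun l h1 h2 => ?_
    exact s2_strict (ww (vOrd k n) c) hsort hi.1 l h1 h2
  have hsum := ww_sum (vOrd k n) c (c''.map g hg.comm hg.displ) a b hga hgb (fun x => x)
  have heq := (Finset.sum_eq_sum_iff_of_le hle).1 hsum
  rw [huw, huw, ← heq _ (Finset.mem_Ioc.2 ⟨has, hsb⟩),
    ← heq _ (Finset.mem_Ioc.2 ⟨by omega, by omega⟩)]
  exact hsort _ has hsb'

end Vale.P067.C
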