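import Vale.Agent.Lib.P067.C.Adapt2
import Vale.Agent.Lib.P067.C.Sort2

/-!
# P067 part C: sorted chambers of a residue correspond to opposite flags (C7, Claim)

`c` is sorted on `T ≠ univ`, `g` adapted to `c`, `c''` agrees with the standard chamber outside `T`.
Then `c''.map g` is sorted on `T` iff all `c''_i` are complements of `M_i`.

Take a block `(a, b]` (`exists_block`): `w = ww vOrd c` is strictly increasing on `(a, b]`,
`c''_a = L a`, `c''_b = L b`, `(g c'')_a = c_a`, `(g c'')_b = c_b`.
(⇐) `i ∈ (a, b]`: `e_i = λ + μ`, `λ ∈ c''_i`, `μ ∈ M_i`; `μ ∈ L b` so `μ` has support in `(i, b]`; `λ ∉ c''_{i-1}`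
(else `λ ∈ c''_{i-1} ⊓ M_{i-1} = 0`). `ord (g λ) = ord (f_i - g μ) = w(i)` by `Adapted.ord`. So `w_{g c''}(i) ≥ w(i)` for
all `i ∈ (a, b]`; equal sums (`ww_sum` with `F = id`), so equality.
(⇒) disjoint: `0 ≠ v ∈ c''_i ⊓ M_i`, `i < b` : `v ∈ L b`, support in `(i, b]`, `ord (g v) ≥ w(i+1) > w(i)`; but `g v` is at a level
`l ∈ (a, i]` of `g c''`, so `ord (g v) ≤ w_{g c''}(l) = w(l) ≤ w(i)` (`sorted_uu_eq`).
codisjoint: by induction on `i` from `a` to `b`: `IsCompl (c''_{i-1}) (M_{i-1})`, `v` at level `i` of `c''`, subtract an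
element of `c''_{i-1}`: `v ∈ M_{i-1}`, `v = α e_i + μ'`, `μ' ∈ M_i`, `α ≠ 0` (else `v ∈ c''_i ⊓ M_i`). So
`e_i ∈ c''_i ⊔ M_i`, and `c''_i ⊔ M_i ≥ c''_{i-1} ⊔ M_{i-1} = ⊤`.
-/

namespace Vale.P067.C

open scoped Classical

variable {k : Type*} [Field k] {n : ℕ}

theorem isCompl_of_sorted (hn : 2 ≤ n) {c : Cham k n} {T : Finset (Fin n)} (hT : T ≠ Finset.univ)
    (hc : Sorted (vOrd k n) c T) {g : E k ≃ₗ[k] E k} (hg : Adapted c g) {c'' : Cham k n}
    (h'' : Agree T (Cham.std k n) c'')
    (h : Sorted (vOrd k n) (c''.map g hg.comm hg.displ) T) (i : ℤ) : IsCompl (c''.c i) (M k i) := by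
  have hmap : ∀ j, (c''.map g hg.comm hg.displ).c j = (c''.c j).map (g : E k →ₗ[k] E k) :=
    fun j => rfl
  have hinj : ∀ j, c.c j = (c''.map g hg.comm hg.displ).c j → c''.c j = L k j := by
    intro j hj
    rw [hmap, ← hg.map j] at hj
    exact (Submodule.map_injective_of_injective g.injective hj).symm
  have hA : Agree T c (c''.map g hg.comm hg.displ) := by
    intro s hs
    rw [hmap, ← hg.map, ← h'' s hs]
    rfl
  have hww : ∀ j, ww (vOrd k n) c j = ww (vOrd k n) (c''.map g hg.comm hg.displ) j := by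
    intro j
    have h1 := sorted_uu_eq hn (vOrd k n) hT hA hc h j
    have h2 : uu (vOrd k n) c j = 1 * ww (vOrd k n) c j := rfl
    have h3 : uu (vOrd k n) (c''.map g hg.comm hg.displ) j =
      1 * ww (vOrd k n) (c''.map g hg.comm hg.displ) j := rfl
    omega
  obtain ⟨a, b, hai, hib, ha, hb, h1, _⟩ := s2_block (by omega) (vOrd k n) hT hA hc h i
  have hLa := hinj a ha
  have hLb := hinj b hb
  have hw : ∀ j l, a < j → j < l → l ≤ b → ww (vOrd k n) c j < ww (vOrd k n) c l := by
    intro j l h2 h3 h4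
    have h5 := s2_strict (uu (vOrd k n) c) h1 h2 l (by omega) h4
    have h6 : uu (vOrd k n) c j = 1 * ww (vOrd k n) c j := rfl
    have h7 : uu (vOrd k n) c l = 1 * ww (vOrd k n) c l := rfl
    omega
  -- disjointness
  have hdis : ∀ j, a ≤ j → j ≤ b → Disjoint (c''.c j) (M k j) := by
    intro j haj hjb
    rcases haj.eq_or_lt with rfl | haj'
    · rw [hLa]
      exact (isCompl_L_M a).disjoint
    rw [Submodule.disjoint_def]
    intro v hv hvM
    by_contra hv0
    have hvb : v ∈ L k b := by
      rw [← hLb]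
      exact c''.mono hjb hv
    obtain ⟨l, hl, hlo, _⟩ := hg.ord v hv0
    have hl1 : j < l := by
      by_contra hcon
      exact hl (hvM l (not_lt.1 hcon))
    have hl2 : l ≤ b := by
      by_contra hcon
      exact hl (hvb l (not_le.1 hcon))
    have hva : v ∉ c''.c a := by
      rw [hLa]
      intro hva
      exact hl (hva l (by omega))
    obtain ⟨m, hm1, hm2, hm3⟩ := c''.exists_level_between hva hv
    have hAt : (c''.map g hg.comm hg.displ).At m (g v) := by
      refine ⟨⟨v, hm3.1, rfl⟩, ?_⟩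
      rintro ⟨w, hw1, hw2⟩
      have : w = v := g.injective hw2
      exact hm3.2 (this ▸ hw1)
    have h2 := le_ww (vOrd k n) _ hAt
    have h3 : (vOrd k n).ν (g v) = ordv (g v) := rfl
    rw [h3, hlo, ← hww m] at h2
    have h4 := hw m l hm1 (by omega) hl2
    omega
  have key : ∀ j, a ≤ j → j ≤ b → IsCompl (c''.c j) (M k j) := by
    intro j hj
    induction j, hj using Int.leInduction with
    | base =>
      intro _
      rw [hLa]
      exact isCompl_L_M a
    | succ m hm ih =>
      intro hmb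
      have hm1 := ih (by omega)
      have hd := hdis (m + 1) (by omega) hmb
      refine ⟨hd, ?_⟩
      rw [codisjoint_iff, eq_top_iff, ← hm1.sup_eq_top]
      obtain ⟨v, hv⟩ := c''.exists_at (m + 1)
      have e1 : m + 1 - 1 = m := by ring
      have hvtop : v ∈ c''.c m ⊔ M k m := by
        rw [hm1.sup_eq_top]
        exact Submodule.mem_top
      obtain ⟨x, hx, y, hy, hxy⟩ := Submodule.mem_sup.1 hvtop
      have hyAt : c''.At (m + 1) y := by
        have h2 : y = v + -x := by rw [← hxy]; abel
        rw [h2]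
        refine hv.add ?_
        rw [e1]
        exact Submodule.neg_mem _ hx
      have hsub : ∀ z : E k, z ∈ M k m → z - z (m + 1) • ee k (m + 1) ∈ M k (m + 1) := by
        intro z hz t ht
        rw [Finsupp.sub_apply, Finsupp.smul_apply, smul_eq_mul]
        rcases eq_or_lt_of_le ht with rfl | ht'
        · rw [ee, Finsupp.single_eq_same, mul_one, sub_self]
        · rw [ee, Finsupp.single_eq_of_ne (by omega), mul_zero, sub_zero]
          exact hz t (by omega)
      have hy1 := hsub y hy
      have hα : y (m + 1) ≠ 0 := by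
        intro h0
        rw [h0, zero_smul, sub_zero] at hy1
        exact hyAt.ne_zero ((Submodule.disjoint_def.1 hd) y hyAt.1 hy1)
      have hee : ee k (m + 1) ∈ c''.c (m + 1) ⊔ M k (m + 1) := by
        have h2 : ee k (m + 1) =
            (y (m + 1))⁻¹ • (y + -(y - y (m + 1) • ee k (m + 1))) := by
          have h3 : y + -(y - y (m + 1) • ee k (m + 1)) = y (m + 1) • ee k (m + 1) := by abel
          rw [h3, smul_smul, inv_mul_cancel₀ hα, one_smul]
        rw [h2]
        exact Submodule.smul_mem _ _ (Submodule.add_mem_sup hyAt.1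
          (Submodule.neg_mem _ hy1))
      refine sup_le ?_ ?_
      · exact (c''.mono (by omega)).trans le_sup_left
      · intro z hz
        have h2 : z = (z - z (m + 1) • ee k (m + 1)) + z (m + 1) • ee k (m + 1) := by abel
        rw [h2]
        refine Submodule.add_mem _ ?_ (Submodule.smul_mem _ _ hee)
        exact Submodule.mem_sup_right (hsub z hz)
  exact key i hai.le hib

end Vale.P067.C
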