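import Vale.Agent.Lib.P067.C.ZeroDeg
import Vale.Agent.Lib.P067.MorseF

/-!
# P067 part C: the complex of normalized chambers and the Morse data of a level (C5)
-/

namespace Vale.P067.C

open scoped Classical

variable {k : Type*} [Field k] {n : ℕ}

/-- vertices -/
abbrev VV (k : Type*) [Field k] (n : ℕ) := Fin n × Submodule k (E k)

/-- the vertex of type `s` of a chamber -/
def vert (c : Cham k n) (s : Fin n) : VV k n := (s, c.c (s : ℕ))

/-- the face of type `J` of a chamber -/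
noncomputable def face (c : Cham k n) (J : Finset (Fin n)) : Finset (VV k n) := J.image (vert c)

/-- the complex of the normalized chambers -/
def Del (k : Type*) [Field k] (n : ℕ) : Set (Finset (VV k n)) :=
  {σ | ∃ c : Cham k n, Norm c ∧ σ ⊆ face c Finset.univ}

/-- type of a face -/
noncomputable def typ (σ : Finset (VV k n)) : Finset (Fin n) := σ.image Prod.fst

theorem mem_face {c : Cham k n} {J : Finset (Fin n)} {v : VV k n} :
    v ∈ face c J ↔ v.1 ∈ J ∧ v.2 = c.c (v.1 : ℕ) := by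
  unfold face
  rw [Finset.mem_image]
  constructor
  · rintro ⟨s, hs, rfl⟩
    exact ⟨hs, rfl⟩
  · rintro ⟨h1, h2⟩
    exact ⟨v.1, h1, Prod.ext rfl h2.symm⟩

theorem face_typ {c : Cham k n} {σ : Finset (VV k n)} (h : σ ⊆ face c Finset.univ) :
    σ = face c (typ σ) := by
  ext v
  rw [mem_face]
  constructor
  · intro hv
    exact ⟨Finset.mem_image_of_mem _ hv, (mem_face.1 (h hv)).2⟩
  · rintro ⟨h1, h2⟩
    obtain ⟨w, hw, hw1⟩ := Finset.mem_image.1 h1
    have h3 := (mem_face.1 (h hw)).2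
    have h4 : w = v := Prod.ext hw1 (by rw [h3, h2, hw1])
    exact h4 ▸ hw

theorem typ_face (c : Cham k n) (J : Finset (Fin n)) : typ (face c J) = J := by
  ext s
  unfold typ
  rw [Finset.mem_image]
  constructor
  · rintro ⟨v, hv, rfl⟩
    exact (mem_face.1 hv).1
  · intro hs
    exact ⟨vert c s, mem_face.2 ⟨hs, rfl⟩, rfl⟩

theorem card_face (c : Cham k n) (J : Finset (Fin n)) : (face c J).card = J.card := by
  unfold face
  exact Finset.card_image_of_injective _ fun s t hst => congrArg Prod.fst hst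

theorem typ_card {c : Cham k n} {σ : Finset (VV k n)} (h : σ ⊆ face c Finset.univ) :
    (typ σ).card = σ.card := by
  conv_rhs => rw [face_typ h, card_face]

/-- the chambers containing a face of `c` -/
theorem subset_face_iff {c c' : Cham k n} {σ : Finset (VV k n)} (h : σ ⊆ face c Finset.univ) :
    σ ⊆ face c' Finset.univ ↔ Agree (typ σ)ᶜ c c' := by
  constructor
  · intro h' s hs
    have hs' : s ∈ typ σ := by
      by_contra hcon
      exact hs (Finset.mem_compl.2 hcon)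
    obtain ⟨v, hv, rfl⟩ := Finset.mem_image.1 hs'
    rw [← (mem_face.1 (h hv)).2, ← (mem_face.1 (h' hv)).2]
  · intro hag v hv
    rw [mem_face]
    refine ⟨Finset.mem_univ _, ?_⟩
    rw [(mem_face.1 (h hv)).2]
    refine hag v.1 ?_
    rw [Finset.mem_compl, not_not]
    exact Finset.mem_image_of_mem _ hv

theorem Del_mono {σ τ : Finset (VV k n)} (h : σ ∈ Del k n) (hs : τ ⊆ σ) : τ ∈ Del k n := by
  obtain ⟨c, hc, hσ⟩ := h
  exact ⟨c, hc, hs.trans hσ⟩

theorem Del_erase : ∀ σ ∈ Del k n, ∀ v ∈ σ, σ.erase v ∈ Del k n := by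
  intro σ hσ v _
  exact Del_mono hσ (Finset.erase_subset _ _)

/-- level of a face: least level of the normalized chambers containing it -/
noncomputable def flvl (ν : Val k n) (σ : Finset (VV k n)) : ℕ :=
  sInf {x : ℕ | ∃ c : Cham k n, Norm c ∧ σ ⊆ face c Finset.univ ∧ lvl ν c = x}

/-- `c` is a minimal normalized chamber containing `σ` -/
def IsMin (ν : Val k n) (σ : Finset (VV k n)) (c : Cham k n) : Prop :=
  Norm c ∧ σ ⊆ face c Finset.univ ∧ lvl ν c = flvl ν σ

theorem exists_isMin (ν : Val k n) {σ : Finset (VV k n)} (h : σ ∈ Del k n) :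
    ∃ c, IsMin ν σ c := by
  obtain ⟨c, hc, hσ⟩ := h
  have hne : {x : ℕ | ∃ c : Cham k n, Norm c ∧ σ ⊆ face c Finset.univ ∧ lvl ν c = x}.Nonempty :=
    ⟨lvl ν c, c, hc, hσ, rfl⟩
  exact Nat.sInf_mem hne

theorem flvl_le (ν : Val k n) {σ : Finset (VV k n)} {c : Cham k n} (hc : Norm c)
    (h : σ ⊆ face c Finset.univ) : flvl ν σ ≤ lvl ν c :=
  Nat.sInf_le ⟨c, hc, h, rfl⟩

theorem flvl_mono (ν : Val k n) {σ τ : Finset (VV k n)} (h : σ ∈ Del k n) (hs : τ ⊆ σ) :
    flvl ν τ ≤ flvl ν σ := by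
  obtain ⟨c, hc, hσ, hl⟩ := exists_isMin ν h
  rw [← hl]
  exact flvl_le ν hc (hs.trans hσ)

private theorem compl_ne_univ {σ : Finset (VV k n)} (hne : σ.Nonempty) :
    (typ σ)ᶜ ≠ Finset.univ := by
  obtain ⟨v, hv⟩ := hne
  intro h
  have h1 : v.1 ∈ (typ σ)ᶜ := by
    rw [h]
    exact Finset.mem_univ _
  exact (Finset.mem_compl.1 h1) (Finset.mem_image_of_mem _ hv)

/-- `sorted_iff_min`, `norm_agree` -/
theorem isMin_iff_sorted (hn : 2 ≤ n) (ν : Val k n) {σ : Finset (VV k n)} {c : Cham k n}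
    (hc : Norm c) (h : σ ⊆ face c Finset.univ) (hne : σ.Nonempty) :
    IsMin ν σ c ↔ Sorted ν c (typ σ)ᶜ := by
  have hT := compl_ne_univ hne
  rw [sorted_iff_min hn ν hT]
  constructor
  · intro hm c' hag
    rw [hm.2.2]
    exact flvl_le ν (norm_agree (by omega) hT hag hc) ((subset_face_iff h).2 hag)
  · intro hm
    refine ⟨hc, h, le_antisymm ?_ (flvl_le ν hc h)⟩
    obtain ⟨c', hc', hσ', hl'⟩ := exists_isMin ν (⟨c, hc, h⟩ : σ ∈ Del k n)
    rw [← hl']
    exact hm c' ((subset_face_iff h).1 hσ')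

theorem isMin_uu_eq (hn : 2 ≤ n) (ν : Val k n) {σ : Finset (VV k n)} (hne : σ.Nonempty)
    {c c' : Cham k n} (hc : IsMin ν σ c) (hc' : IsMin ν σ c') (i : ℤ) :
    uu ν c i = uu ν c' i :=
  sorted_uu_eq hn ν (compl_ne_univ hne) ((subset_face_iff hc.2.1).1 hc'.2.1)
    ((isMin_iff_sorted hn ν hc.1 hc.2.1 hne).1 hc)
    ((isMin_iff_sorted hn ν hc'.1 hc'.2.1 hne).1 hc') i

/-- a minimal chamber (chosen) -/
noncomputable def minC (ν : Val k n) (σ : Finset (VV k n)) : Cham k n :=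
  if h : ∃ c, IsMin ν σ c then h.choose else Cham.std k n

theorem minC_spec (ν : Val k n) {σ : Finset (VV k n)} (h : σ ∈ Del k n) : IsMin ν σ (minC ν σ) := by
  have h1 := exists_isMin ν h
  unfold minC
  rw [dif_pos h1]
  exact h1.choose_spec

end Vale.P067.C
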