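import Vale.Agent.Lib.P067.C.Face
import Vale.Agent.Lib.P067.Dec

/-!
# P067 part C: the Morse data of a level
-/

namespace Vale.P067.C

open scoped Classical

variable {k : Type*} [Field k] {n : ℕ}

/-- descent face -/
noncomputable def II (ν : Val k n) (σ : Finset (VV k n)) : Finset (VV k n) :=
  σ.filter fun v => v.1 ∈ desc ν (minC ν σ)

/-- the property which makes the levels work: normalized chambers of positive level have a descent -/
def Good (ν : Val k n) : Prop :=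
  (∀ c : Cham k n, Norm c → 0 < lvl ν c → (desc ν c).Nonempty) ∧ lvl ν (Cham.std k n) = 0

theorem good_ord (hn : 0 < n) : Good (vOrd k n) :=
  ⟨fun c hc h => desc_nonempty_ord hn c hc h, (lvl_std hn).1⟩

theorem good_deg (hn : 0 < n) : Good (vDeg k n) :=
  ⟨fun c hc h => desc_nonempty_deg hn c hc h, (lvl_std hn).2⟩

/-- the empty face has level zero -/
theorem flvl_empty (ν : Val k n) (hg : Good ν) : flvl ν (∅ : Finset (VV k n)) = 0 := by
  have h := flvl_le ν (σ := ∅) (norm_std (k := k) (n := n)) (Finset.empty_subset _)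
  rw [hg.2] at h
  exact Nat.le_zero.mp h

theorem faceM_desc_congr (ν : Val k n) {c c' : Cham k n} (h : ∀ i, uu ν c i = uu ν c' i) :
    desc ν c = desc ν c' := by
  unfold desc
  simp only [h]

theorem faceM_lvl_congr (ν : Val k n) {c c' : Cham k n} (h : ∀ i, uu ν c i = uu ν c' i) :
    lvl ν c = lvl ν c' := by
  unfold lvl
  simp only [h]

theorem faceM_face_congr {c c' : Cham k n} {J : Finset (Fin n)} (h : Agree Jᶜ c c') :
    face c J = face c' J := by
  ext v
  rw [mem_face, mem_face]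
  constructor
  · rintro ⟨h1, h2⟩
    exact ⟨h1, by rw [h2, h v.1 (by simpa using h1)]⟩
  · rintro ⟨h1, h2⟩
    exact ⟨h1, by rw [h2, h v.1 (by simpa using h1)]⟩

theorem faceM_nonempty (ν : Val k n) (hg : Good ν) {σ : Finset (VV k n)} (hpos : 0 < flvl ν σ) :
    σ.Nonempty := by
  rw [Finset.nonempty_iff_ne_empty]
  rintro rfl
  rw [flvl_empty ν hg] at hpos
  exact lt_irrefl _ hpos

theorem faceM_desc_sub (hn : 2 ≤ n) (ν : Val k n) {σ : Finset (VV k n)} (hne : σ.Nonempty)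
    {c : Cham k n} (hc : IsMin ν σ c) : desc ν c ⊆ typ σ := by
  have h1 := (isMin_iff_sorted hn ν hc.1 hc.2.1 hne).1 hc
  rw [sorted_iff_desc, Finset.disjoint_left] at h1
  intro s hs
  by_contra hcon
  exact h1 (Finset.mem_compl.2 hcon) hs

theorem faceM_isMin_of (hn : 2 ≤ n) (ν : Val k n) {σ : Finset (VV k n)} (hne : σ.Nonempty)
    {c : Cham k n} (hc : Norm c) (h : σ ⊆ face c Finset.univ) (hd : desc ν c ⊆ typ σ) :
    IsMin ν σ c := by
  rw [isMin_iff_sorted hn ν hc h hne, sorted_iff_desc, Finset.disjoint_left]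
  intro s hs hs'
  exact (Finset.mem_compl.1 hs) (hd hs')

theorem faceM_mem {c : Cham k n} {σ : Finset (VV k n)} (h : σ ⊆ face c Finset.univ) (v : VV k n) :
    v ∈ σ ↔ v.1 ∈ typ σ ∧ v.2 = c.c (v.1 : ℕ) := by
  have h1 := face_typ h
  constructor
  · intro hv
    rw [h1] at hv
    exact mem_face.1 hv
  · intro hv
    rw [h1]
    exact mem_face.2 hv

/-- for a face of positive level and a minimal chamber `c`: `II ν σ` is the face of `c` of type `desc ν c`,
`desc ν c ⊆ typ σ` is nonempty -/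
theorem II_eq (hn : 2 ≤ n) (ν : Val k n) (hg : Good ν) {σ : Finset (VV k n)} (h : σ ∈ Del k n)
    (hpos : 0 < flvl ν σ) {c : Cham k n} (hc : IsMin ν σ c) :
    II ν σ = face c (desc ν c) ∧ desc ν c ⊆ typ σ ∧ (desc ν c).Nonempty := by
  have hne := faceM_nonempty ν hg hpos
  have hmin := minC_spec ν h
  have hdesc : desc ν (minC ν σ) = desc ν c :=
    faceM_desc_congr ν fun i => isMin_uu_eq hn ν hne hmin hc i
  have hsub := faceM_desc_sub hn ν hne hc
  refine ⟨?_, hsub, hg.1 c hc.1 (by rw [hc.2.2]; exact hpos)⟩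
  ext v
  unfold II
  rw [Finset.mem_filter, hdesc, mem_face, faceM_mem hc.2.1]
  constructor
  · rintro ⟨⟨_, h2⟩, h3⟩
    exact ⟨h3, h2⟩
  · rintro ⟨h3, h2⟩
    exact ⟨⟨hsub h3, h2⟩, h3⟩

/-- Morse: `stab` of `MSF` -/
theorem II_stab (hn : 2 ≤ n) (ν : Val k n) (hg : Good ν) {σ : Finset (VV k n)} (h : σ ∈ Del k n)
    (hpos : 0 < flvl ν σ) (σ' : Finset (VV k n)) (h1 : II ν σ ⊆ σ') (h2 : σ' ⊆ σ) :
    flvl ν σ' = flvl ν σ ∧ II ν σ' = II ν σ := by
  have hc := minC_spec ν h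
  obtain ⟨e1, e2, e3⟩ := II_eq hn ν hg h hpos hc
  have hsub' : σ' ⊆ face (minC ν σ) Finset.univ := h2.trans hc.2.1
  have hd : desc ν (minC ν σ) ⊆ typ σ' := by
    intro s hs
    have h3 : vert (minC ν σ) s ∈ II ν σ := by
      rw [e1, mem_face]
      exact ⟨hs, rfl⟩
    exact Finset.mem_image.2 ⟨_, h1 h3, rfl⟩
  have hne' : σ'.Nonempty := by
    obtain ⟨s, hs⟩ := e3
    obtain ⟨v, hv, _⟩ := Finset.mem_image.1 (hd hs)
    exact ⟨v, hv⟩
  have hmin' : IsMin ν σ' (minC ν σ) := faceM_isMin_of hn ν hne' hc.1 hsub' hd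
  have hl : flvl ν σ' = flvl ν σ := hmin'.2.2.symm.trans hc.2.2
  refine ⟨hl, ?_⟩
  rw [e1]
  exact (II_eq hn ν hg (Del_mono h h2) (by rw [hl]; exact hpos) hmin').1

/-- Morse: `down` of `MSF` -/
theorem II_down (hn : 2 ≤ n) (ν : Val k n) (hg : Good ν) {σ : Finset (VV k n)} (h : σ ∈ Del k n)
    (hpos : 0 < flvl ν σ) (v : VV k n) (hv : v ∈ II ν σ) : flvl ν (σ.erase v) < flvl ν σ := by
  have hc := minC_spec ν h
  obtain ⟨e1, e2, e3⟩ := II_eq hn ν hg h hpos hc
  rcases (flvl_mono ν h (Finset.erase_subset v σ)).lt_or_eq with hlt | heq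
  · exact hlt
  · exfalso
    have hpos' : 0 < flvl ν (σ.erase v) := by rw [heq]; exact hpos
    have hne' := faceM_nonempty ν hg hpos'
    have hmin' : IsMin ν (σ.erase v) (minC ν σ) :=
      ⟨hc.1, (Finset.erase_subset v σ).trans hc.2.1, hc.2.2.trans heq.symm⟩
    have hd := faceM_desc_sub hn ν hne' hmin'
    rw [e1, mem_face] at hv
    obtain ⟨w, hw, hwv⟩ := Finset.mem_image.1 (hd hv.1)
    have hw1 := Finset.mem_erase.1 hw
    have hw2 := ((faceM_mem hc.2.1 w).1 hw1.2).2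
    apply hw1.1
    refine Prod.ext hwv ?_
    rw [hw2, hv.2, hwv]

/-- the local complex of a face of positive level in terms of the minimal chamber `c`: faces `τ` of types
in the complement of `desc ν c` which are contained in a chamber `c'` of the residue of `c` with the same
values `uu` (equivalently sorted on the complement of `desc ν c`) -/
def LocC (ν : Val k n) (c : Cham k n) : Set (Finset (VV k n)) :=
  {τ | typ τ ⊆ (desc ν c)ᶜ ∧
    ∃ c' : Cham k n, Agree (desc ν c)ᶜ c c' ∧ Sorted ν c' (desc ν c)ᶜ ∧ τ ⊆ face c' Finset.univ}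

/-- identification of the local complex of `MSF` -/
theorem loc_eq (hn : 2 ≤ n) (ν : Val k n) (hg : Good ν) {σ : Finset (VV k n)} (h : σ ∈ Del k n)
    (hpos : 0 < flvl ν σ) {c : Cham k n} (hc : IsMin ν σ c) :
    {τ | Disjoint τ (II ν σ) ∧ τ ∪ II ν σ ∈ Del k n ∧ flvl ν (τ ∪ II ν σ) = flvl ν σ ∧
      II ν (τ ∪ II ν σ) = II ν σ} = LocC ν c := by
  obtain ⟨e1, e2, e3⟩ := II_eq hn ν hg h hpos hc
  have hII : II ν σ ⊆ face c Finset.univ := by
    rw [e1]
    intro v hv
    rw [mem_face] at hv ⊢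
    exact ⟨Finset.mem_univ _, hv.2⟩
  have htypII : typ (II ν σ) = desc ν c := by rw [e1, typ_face]
  have hTne : (desc ν c)ᶜ ≠ Finset.univ := by
    intro hcon
    rw [Finset.compl_eq_univ_iff] at hcon
    exact e3.ne_empty hcon
  ext τ
  constructor
  · rintro ⟨hdis, hdel, hl, hI⟩
    have hpos' : 0 < flvl ν (τ ∪ II ν σ) := by rw [hl]; exact hpos
    have hc' := minC_spec ν hdel
    obtain ⟨f1, f2, f3⟩ := II_eq hn ν hg hdel hpos' hc'
    have hdesc : desc ν (minC ν (τ ∪ II ν σ)) = desc ν c := by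
      have h1 := congrArg typ (f1.symm.trans (hI.trans e1))
      rwa [typ_face, typ_face] at h1
    refine ⟨?_, minC ν (τ ∪ II ν σ), ?_, ?_, Finset.subset_union_left.trans hc'.2.1⟩
    · intro s hs
      rw [Finset.mem_compl]
      intro hs'
      obtain ⟨v, hv, rfl⟩ := Finset.mem_image.1 hs
      have hv2 := (mem_face.1 (hc'.2.1 (Finset.mem_union_left _ hv))).2
      have hv3 : v ∈ II ν σ := by
        rw [← hI, f1, mem_face, hdesc]
        exact ⟨hs', hv2⟩
      exact Finset.disjoint_left.1 hdis hv hv3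
    · have h1 := (subset_face_iff (c' := minC ν (τ ∪ II ν σ)) hII).1
        (Finset.subset_union_right.trans hc'.2.1)
      rwa [htypII] at h1
    · rw [sorted_iff_desc, hdesc]
      exact disjoint_compl_left
  · rintro ⟨ht, c', hag, hso, hsub⟩
    have hsortc : Sorted ν c (desc ν c)ᶜ := by
      rw [sorted_iff_desc]
      exact disjoint_compl_left
    have huu : ∀ i, uu ν c i = uu ν c' i := sorted_uu_eq hn ν hTne hag hsortc hso
    have hdesc := faceM_desc_congr ν huu
    have hlvl := faceM_lvl_congr ν huu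
    have hN : Norm c' := norm_agree (by omega) hTne hag hc.1
    have hII' : II ν σ ⊆ face c' Finset.univ := by
      rw [subset_face_iff hII, htypII]
      exact hag
    have hρ : τ ∪ II ν σ ⊆ face c' Finset.univ := Finset.union_subset hsub hII'
    have hdel : τ ∪ II ν σ ∈ Del k n := ⟨c', hN, hρ⟩
    have hd' : desc ν c' ⊆ typ (τ ∪ II ν σ) := by
      rw [← hdesc, ← htypII]
      exact Finset.image_subset_image Finset.subset_union_right
    have hne : (τ ∪ II ν σ).Nonempty := by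
      obtain ⟨s, hs⟩ := e3
      rw [hdesc] at hs
      obtain ⟨v, hv, _⟩ := Finset.mem_image.1 (hd' hs)
      exact ⟨v, hv⟩
    have hmin : IsMin ν (τ ∪ II ν σ) c' := faceM_isMin_of hn ν hne hN hρ hd'
    have hl : flvl ν (τ ∪ II ν σ) = flvl ν σ := by
      rw [← hmin.2.2, ← hc.2.2, hlvl]
    refine ⟨?_, hdel, hl, ?_⟩
    · rw [Finset.disjoint_left]
      intro v hv hv'
      have h1 := ht (Finset.mem_image_of_mem Prod.fst hv)
      rw [Finset.mem_compl] at h1
      rw [e1, mem_face] at hv'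
      exact h1 hv'.1
    · rw [(II_eq hn ν hg hdel (by rw [hl]; exact hpos) hmin).1, e1, ← hdesc]
      exact (faceM_face_congr hag).symm

/-- pushing down for both filtrations -/
theorem push_down (hn : 2 ≤ n) (ν : Val k n) (hg : Good ν) (j : ℕ)
    (hloc : ∀ c : Cham k n, Norm c → (desc ν c).Nonempty → (desc ν c).card ≤ j →
      Fills (LocC ν c) (j - (desc ν c).card))
    (z : Ch (VV k n)) (hz : On (Del k n) j z) (hbd : ∀ σ ∈ (bd z).support, flvl ν σ = 0) :
    ∃ u : Ch (VV k n), On (Del k n) (j + 1) u ∧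
      On {σ | σ ∈ Del k n ∧ flvl ν σ = 0} j (z + bd u) := by
  have h1 : ∀ σ ∈ Del k n, ∀ v ∈ σ, σ.erase v ∈ Del k n := Del_erase
  have h2 : ∀ σ ∈ Del k n, ∀ v ∈ σ, flvl ν (σ.erase v) ≤ flvl ν σ := fun σ hσ v _ =>
    flvl_mono ν hσ (Finset.erase_subset v σ)
  have h3 : ∀ σ ∈ Del k n, 0 < flvl ν σ → ∀ v ∈ II ν σ, flvl ν (σ.erase v) < flvl ν σ :=
    fun σ hσ hpos v hv => II_down hn ν hg hσ hpos v hv
  have h4 : ∀ σ ∈ Del k n, 0 < flvl ν σ → (II ν σ).card ≤ j →
      Fills {τ | Disjoint τ (II ν σ) ∧ τ ∪ II ν σ ∈ Del k n ∧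
        flvl ν (τ ∪ II ν σ) = flvl ν σ ∧ II ν (τ ∪ II ν σ) = II ν σ} (j - (II ν σ).card) := by
    intro σ hσ hpos hcard
    have hc := minC_spec ν hσ
    obtain ⟨e1, e2, e3⟩ := II_eq hn ν hg hσ hpos hc
    have hcc : (II ν σ).card = (desc ν (minC ν σ)).card := by rw [e1, card_face]
    rw [loc_eq hn ν hg hσ hpos hc, hcc]
    exact hloc _ hc.1 e3 (hcc ▸ hcard)
  refine MSF (Del k n) ?_ (flvl ν) ?_
    (II ν) (fun σ _ _ => Finset.filter_subset _ _)
    (fun σ hσ hpos σ' h1 h2 => II_stab hn ν hg hσ hpos σ' h1 h2) ?_ j ?_ z hz hbd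
  · intro σ hσ v hv
    exact Eq.mpr (congrArg (fun t => t ∈ Del k n) (dec_erase _ _ _ _)) (h1 σ hσ v hv)
  · intro σ hσ v hv
    exact Eq.mpr (congrArg (fun t => flvl ν t ≤ flvl ν σ) (dec_erase _ _ _ _)) (h2 σ hσ v hv)
  · intro σ hσ hpos v hv
    exact Eq.mpr (congrArg (fun t => flvl ν t < flvl ν σ) (dec_erase _ _ _ _)) (h3 σ hσ hpos v hv)
  · intro σ hσ hpos hc
    have h5 := h4 σ hσ hpos hc
    have e : ∀ τ τ' : Finset (VV k n), τ ∪ τ' = @Union.union _ (@Finset.instUnion _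
        (fun a b => Classical.propDecidable (a = b))) τ τ' := fun τ τ' => dec_union _ _ _ _
    simp only [e] at h5
    exact h5

end Vale.P067.C
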