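import Vale.Agent.Lib.P067.C.Local

/-!
# P067 part C: local faces come from `Fl`
-/

namespace Vale.P067.C

open scoped Classical

variable {k : Type*} [Field k] {n : ℕ}

private theorem Local3_resi_nat (hn' : 0 < n) (s : Fin n) (m : ℤ) :
    resi hn' ((s : ℕ) + m * n) = s := by
  apply Fin.ext
  have h1 := resi_cast hn' (((s : ℕ) : ℤ) + m * n)
  have h2 : (((s : ℕ) : ℤ) + m * n) % n = (s : ℕ) := by
    rw [Int.add_mul_emod_self_right]
    exact Int.emod_eq_of_lt (Int.natCast_nonneg _) (by exact_mod_cast s.2)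
  rw [h2] at h1
  exact_mod_cast h1

/-- the value of `Fmap` at a vertex of a chamber -/
private theorem Local3_Fmap (hn' : 0 < n) {c' c'' : Cham k n} {g : E k ≃ₗ[k] E k}
    (h : ∀ i, (c''.c i).map (g : E k →ₗ[k] E k) = c'.c i) (i : ℤ) :
    Fmap hn' g (i, c''.c i) = (resi hn' i, c'.c (resi hn' i : ℕ)) := by
  have e0 : i % n - i = (-(i / n)) * n := by
    have h3 := Int.emod_add_mul_ediv i n
    linear_combination h3
  have e1 : i + (-(i / n)) * n = ((resi hn' i : ℕ) : ℤ) := by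
    rw [resi_cast, ← e0]
    ring
  show (resi hn' i, ((c''.c i).map (g : E k →ₗ[k] E k)).map
    (sh k (i % n - i) : E k →ₗ[k] E k)) = _
  rw [h, e0, Cham.per_zsmul, e1]

/-- conversely: `c' = c''.map g` (`Adapted.exists_pre`), `c''` agrees with the standard chamber outside `T`,
`isCompl_of_sorted`; `τ = {(i, c''_i) : i ∈ winT, resi i ∈ typ σ}` -/
theorem exists_of_mem_LocC (hn : 2 ≤ n) (hn' : 0 < n) {c : Cham k n} {g : E k ≃ₗ[k] E k}
    (hg : Adapted c g) (j0 : Fin n) (hj0 : j0 ∈ desc (vOrd k n) c) {σ : Finset (VV k n)}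
    (hσ : σ ∈ LocC (vOrd k n) c) :
    ∃ τ ∈ Fl k (j0 : ℕ) ((j0 : ℕ) + n) (winT hn' (j0 : ℕ) (desc (vOrd k n) c)ᶜ),
      σ = τ.image (Fmap hn' g) := by
  obtain ⟨htyp, c', hag, hso, hsub⟩ := hσ
  obtain ⟨c'', hc''⟩ := hg.exists_pre c'
  have hmap : ∀ i, (c''.c i).map (g : E k →ₗ[k] E k) = c'.c i := by
    intro i
    rw [← hc'']
    rfl
  have hinj : Function.Injective (Submodule.map (g : E k →ₗ[k] E k)) :=
    Submodule.map_injective_of_injective g.injective
  have hj0' : j0 ∉ (desc (vOrd k n) c)ᶜ := fun h => (Finset.mem_compl.1 h) hj0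
  have hT : (desc (vOrd k n) c)ᶜ ≠ Finset.univ := by
    intro h
    exact hj0' (h ▸ Finset.mem_univ _)
  have hsc : Sorted (vOrd k n) c (desc (vOrd k n) c)ᶜ := by
    rw [sorted_iff_desc]
    exact disjoint_compl_left
  have hstd : Agree (desc (vOrd k n) c)ᶜ (Cham.std k n) c'' := by
    intro s hs
    apply hinj
    rw [hmap, ← hag s hs]
    exact hg.map _
  have hcompl : ∀ i, IsCompl (c''.c i) (M k i) :=
    isCompl_of_sorted hn hT hsc hg hstd (by rw [hc'']; exact hso)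
  have hL : ∀ l : ℤ, resi hn' l ∉ (desc (vOrd k n) c)ᶜ → c''.c l = L k l := by
    intro l hl
    obtain ⟨s, m, rfl⟩ := exists_res hn' l
    rw [Local3_resi_nat] at hl
    exact (hstd.at_int hl m).symm
  have hwin : ∀ l : ℤ, (j0 : ℕ) ≤ l → l ≤ (j0 : ℕ) + n →
      l ∉ winT hn' (j0 : ℕ) (desc (vOrd k n) c)ᶜ → c''.c l = L k l := by
    intro l h1 h2 h3
    apply hL
    intro h4
    rcases h1.lt_or_eq with h1 | h1
    · rcases h2.lt_or_eq with h2 | h2
      · exact h3 (Finset.mem_filter.2 ⟨Finset.mem_Ioo.2 ⟨h1, h2⟩, h4⟩)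
      · have h5 : l = (j0 : ℕ) + 1 * n := by rw [h2]; ring
        rw [h5, Local3_resi_nat] at h4
        exact hj0' h4
    · have h5 : l = (j0 : ℕ) + 0 * n := by rw [← h1]; ring
      rw [h5, Local3_resi_nat] at h4
      exact hj0' h4
  refine ⟨((winT hn' (j0 : ℕ) (desc (vOrd k n) c)ᶜ).filter
    (fun i => resi hn' i ∈ typ σ)).image (fun i => (i, c''.c i)), ⟨?_, ?_⟩, ?_⟩
  · intro v hv
    obtain ⟨i, hi, rfl⟩ := Finset.mem_image.1 hv
    have hi1 := (Finset.mem_filter.1 hi).1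
    refine ⟨hi1, hcompl i, fun l h1 h2 h3 => ?_⟩
    rw [← hwin l h1 h2 h3]
    exact ⟨fun h => c''.mono h, fun h => c''.mono h⟩
  · intro v hv w hw hvw
    obtain ⟨i, hi, rfl⟩ := Finset.mem_image.1 hv
    obtain ⟨l, hl, rfl⟩ := Finset.mem_image.1 hw
    exact c''.mono hvw
  · rw [Finset.image_image]
    ext v
    rw [Finset.mem_image]
    constructor
    · intro hv
      have hv1 : v.1 ∈ typ σ := Finset.mem_image_of_mem _ hv
      have hv2 := (mem_face.1 (hsub hv)).2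
      have hv3 := htyp hv1
      have hne : v.1 ≠ j0 := fun h => hj0' (h ▸ hv3)
      have hlt : ((v.1 : ℕ) : ℤ) < n := by exact_mod_cast v.1.2
      have hlt0 : ((j0 : ℕ) : ℤ) < n := by exact_mod_cast j0.2
      have hne' : ((v.1 : ℕ) : ℤ) ≠ ((j0 : ℕ) : ℤ) := by
        intro h
        exact hne (Fin.ext (by exact_mod_cast h))
      have hge : (0 : ℤ) ≤ ((v.1 : ℕ) : ℤ) := Int.natCast_nonneg _
      have hge0 : (0 : ℤ) ≤ ((j0 : ℕ) : ℤ) := Int.natCast_nonneg _
      obtain ⟨m, hm1, hm2⟩ : ∃ m : ℤ, ((j0 : ℕ) : ℤ) < (v.1 : ℕ) + m * n ∧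
          ((v.1 : ℕ) : ℤ) + m * n < (j0 : ℕ) + n := by
        rcases lt_or_gt_of_ne hne' with h | h
        · exact ⟨1, by omega, by omega⟩
        · exact ⟨0, by omega, by omega⟩
      refine ⟨(v.1 : ℕ) + m * n, ?_, ?_⟩
      · rw [Finset.mem_filter, Local3_resi_nat]
        refine ⟨Finset.mem_filter.2 ⟨Finset.mem_Ioo.2 ⟨hm1, hm2⟩, ?_⟩, hv1⟩
        rw [Local3_resi_nat]
        exact hv3
      · rw [Function.comp_apply, Local3_Fmap hn' hmap, Local3_resi_nat]
        exact Prod.ext rfl hv2.symm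
    · rintro ⟨i, hi, rfl⟩
      rw [Function.comp_apply, Local3_Fmap hn' hmap, face_typ hsub]
      exact mem_face.2 ⟨(Finset.mem_filter.1 hi).2, rfl⟩

end Vale.P067.C
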