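import Vale.Agent.Lib.P067.C.Local2
import Vale.Agent.Lib.P067.C.Local3

/-!
# P067 part C: the local complexes of the first filtration fill
-/

namespace Vale.P067.C

open scoped Classical

variable {k : Type*} [Field k] {n : ℕ}

private theorem local4_erase_sub {α : Type*} (inst : DecidableEq α) (s : Finset α) (a : α) :
    @Finset.erase α inst s a ⊆ s :=
  @Finset.erase_subset α inst a s

private theorem local4_image {α β : Type*} (i1 i2 : DecidableEq β) (f : α → β) (s : Finset α) :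
    @Finset.image α β i1 f s = @Finset.image α β i2 f s := by
  have h : i1 = i2 := Subsingleton.elim _ _
  subst h
  rfl

theorem fills_locC_ord (hn : 2 ≤ n) (hB : BInput k n) (c : Cham k n)
    (hc : (desc (vOrd k n) c).Nonempty) (j : ℕ) (hj : j + 1 + (desc (vOrd k n) c).card ≤ n) :
    Fills (LocC (vOrd k n) c) j := by
  have hn' : 0 < n := by omega
  obtain ⟨g, hg⟩ := exists_adapted hn' c
  obtain ⟨j0, hj0⟩ := hc
  have hj0' : j0 ∉ (desc (vOrd k n) c)ᶜ := by
    rw [Finset.mem_compl, not_not]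
    exact hj0
  have hcard := winT_card hn' j0 _ hj0'
  rw [Finset.card_compl, Fintype.card_fin] at hcard
  have h1 : Fills (Fl k (j0 : ℕ) ((j0 : ℕ) + n)
      (winT hn' (j0 : ℕ) (desc (vOrd k n) c)ᶜ)) j := by
    refine hB (j0 : ℕ) _ ?_ j ?_
    · intro i hi
      unfold winT at hi
      rw [Finset.mem_filter, Finset.mem_Ioo] at hi
      exact hi.1
    · rw [hcard]
      omega
  have h2 := fills_image (Fmap hn' g) (Fl k (j0 : ℕ) ((j0 : ℕ) + n)
      (winT hn' (j0 : ℕ) (desc (vOrd k n) c)ᶜ))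
      (fun σ hσ v _ => Fl_mono hσ (local4_erase_sub _ σ v))
      (Fmap_injOn hn' g (j0 : ℕ) (desc (vOrd k n) c)ᶜ) j h1
  have hI : ∀ τ : Finset (ℤ × Submodule k (E k)),
      @Finset.image (ℤ × Submodule k (E k)) (VV k n)
        (fun a b => Classical.propDecidable (a = b)) (Fmap hn' g) τ =
      τ.image (Fmap hn' g) := by
    intro τ
    exact local4_image _ _ _ τ
  have h3 : {σ | ∃ τ ∈ Fl k (j0 : ℕ) ((j0 : ℕ) + n)
      (winT hn' (j0 : ℕ) (desc (vOrd k n) c)ᶜ),
      σ = @Finset.image (ℤ × Submodule k (E k)) (VV k n)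
        (fun a b => Classical.propDecidable (a = b)) (Fmap hn' g) τ} =
      LocC (vOrd k n) c := by
    ext σ
    constructor
    · rintro ⟨τ, hτ, rfl⟩
      rw [hI]
      exact image_mem_LocC hn hn' hg j0 hj0 hτ
    · intro hσ
      obtain ⟨τ, hτ, h4⟩ := exists_of_mem_LocC hn hn' hg j0 hj0 hσ
      exact ⟨τ, hτ, h4.trans (hI τ).symm⟩
  rw [← h3]
  exact h2

end Vale.P067.C
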