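import Vale.Agent.Lib.P067.C.FaceM
import Vale.Agent.Lib.P067.Dec

/-!
# P067 part C: the second filtration (`-deg`): the complex `Del` is acyclic (C6)
-/

namespace Vale.P067.C

open scoped Classical

variable {k : Type*} [Field k] {n : ℕ}

private theorem Second_typ_insert (v : VV k n) (σ : Finset (VV k n)) :
    typ (insert v σ) = insert v.1 (typ σ) := by
  unfold typ
  rw [Finset.image_insert]

private theorem Second_vert_mem (c : Cham k n) (s : Fin n) : vert c s ∈ face c Finset.univ :=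
  mem_face.2 ⟨Finset.mem_univ _, rfl⟩

/-- by `sorted_unique_deg` the local complex is the full simplex `{τ ⊆ face c (desc c)ᶜ}`, which has a cone
vertex because `desc c ≠ univ` -/
theorem fills_locC_deg (hn : 2 ≤ n) (c : Cham k n) (hc : (desc (vDeg k n) c).Nonempty) (j : ℕ) :
    Fills (LocC (vDeg k n) c) j := by
  have hT : (desc (vDeg k n) c)ᶜ ≠ Finset.univ := by
    intro h
    rw [Finset.compl_eq_univ_iff] at h
    rw [h] at hc
    exact Finset.not_nonempty_empty hc
  have hT' : ((desc (vDeg k n) c)ᶜ).Nonempty := by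
    rw [Finset.nonempty_iff_ne_empty]
    intro h
    rw [Finset.compl_eq_empty_iff] at h
    exact desc_ne_univ (by omega) (vDeg k n) c h
  have hs : Sorted (vDeg k n) c (desc (vDeg k n) c)ᶜ :=
    (sorted_iff_desc _ _ _).2 disjoint_compl_left
  obtain ⟨s, hsT⟩ := hT'
  refine fills_cone _ (vert c s) ?_ j
  rintro σ ⟨h1, c', h2, h3, h4⟩
  have he : c = c' := sorted_unique_deg hn hT h2 hs h3
  have key : insert (vert c s) σ ∈ LocC (vDeg k n) c := by
    refine ⟨?_, c', h2, h3, ?_⟩
    · rw [Second_typ_insert]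
      exact Finset.insert_subset hsT h1
    · refine Finset.insert_subset ?_ h4
      rw [← he]
      exact Second_vert_mem c s
  exact Eq.mpr (congrArg (fun t => t ∈ LocC (vDeg k n) c) (dec_insert _ _ _ _)) key

/-- faces of level `0`: the faces of the standard chamber -/
theorem flvl_deg_zero (hn : 2 ≤ n) {σ : Finset (VV k n)} (h : σ ∈ Del k n) :
    flvl (vDeg k n) σ = 0 ↔ σ ⊆ face (Cham.std k n) Finset.univ := by
  have hn0 : 0 < n := by omega
  constructor
  · intro h0
    obtain ⟨c, hc⟩ := exists_isMin (vDeg k n) h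
    have h1 : lvl (vDeg k n) c = 0 := by rw [hc.2.2, h0]
    have h2 := (lvl_eq_zero_iff hn0 _ c).1 h1
    have h3 : c = Cham.std k n := by
      apply Cham.ext'
      intro i
      have h4 := eq_std_of_uu_deg c 0 (fun i => by rw [h2 i, add_zero]) i
      rw [add_zero] at h4
      rw [h4]
      rfl
    rw [← h3]
    exact hc.2.1
  · intro h1
    have h2 := flvl_le (vDeg k n) norm_std h1
    rw [(lvl_std hn0).2] at h2
    omega

/-- C6 -/
theorem fills_Del (hn : 2 ≤ n) (j : ℕ) : Fills (Del k n) j := by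
  have hn0 : 0 < n := by omega
  intro z hz hbd
  obtain ⟨u, hu, hu0⟩ := push_down hn (vDeg k n) (good_deg hn0) j
    (fun c _ hd _ => fills_locC_deg hn c hd _) z hz (by
      intro σ hσ
      rw [hbd] at hσ
      simp at hσ)
  have hcone : Fills {σ | σ ∈ Del k n ∧ flvl (vDeg k n) σ = 0} j := by
    refine fills_cone _ (vert (Cham.std k n) ⟨0, hn0⟩) ?_ j
    rintro σ ⟨h1, h2⟩
    have h3 := (flvl_deg_zero hn h1).1 h2
    have h4 : insert (vert (Cham.std k n) ⟨0, hn0⟩) σ ⊆ face (Cham.std k n) Finset.univ :=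
      Finset.insert_subset (Second_vert_mem _ _) h3
    have h5 : insert (vert (Cham.std k n) ⟨0, hn0⟩) σ ∈ Del k n := ⟨_, norm_std, h4⟩
    have key : insert (vert (Cham.std k n) ⟨0, hn0⟩) σ ∈
        {σ | σ ∈ Del k n ∧ flvl (vDeg k n) σ = 0} := ⟨h5, (flvl_deg_zero hn h5).2 h4⟩
    exact Eq.mpr (congrArg (fun t => t ∈ {σ | σ ∈ Del k n ∧ flvl (vDeg k n) σ = 0})
      (dec_insert _ _ _ _)) key
  obtain ⟨y, hy, hyb⟩ := hcone (z + bd u) hu0 (by rw [map_add, hbd, bd_bd, add_zero])
  refine ⟨y + u, On.add (On.mono (fun σ hσ => hσ.1) hy) hu, ?_⟩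
  rw [map_add, hyb, add_assoc, ch_add_self, add_zero]

end Vale.P067.C
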