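import Vale.Agent.Lib.P067.C.LevelZero
import Vale.Agent.Lib.P067.C.Local4
import Vale.Agent.Lib.P067.C.Second

/-!
# P067 part C: the first filtration; the complex of chambers opposite to `M` (C7, C9)
-/

namespace Vale.P067.C

open scoped Classical

variable {k : Type*} [Field k] {n : ℕ}

/-- C7: `z = bd y` in `Del` by `fills_Del`, push `y` down by `push_down` -/
theorem fills_level_zero (hn : 2 ≤ n) (hB : BInput k n) (j : ℕ) (hj : j + 2 ≤ n) :
    Fills {σ | σ ∈ Del k n ∧ flvl (vOrd k n) σ = 0} j := by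
  intro z hz hbd
  obtain ⟨y, hy, hyb⟩ := fills_Del hn j z (On.mono (fun σ hσ => hσ.1) hz) hbd
  obtain ⟨u, hu, hu0⟩ := push_down hn (vOrd k n) (good_ord (by omega)) (j + 1)
    (fun c _ hd hcard => fills_locC_ord hn hB c hd _ (by omega)) y hy (by
      intro σ hσ
      rw [hyb] at hσ
      exact (hz σ hσ).1.2)
  exact ⟨y + bd u, hu0, by rw [map_add, hyb, bd_bd, add_zero]⟩

theorem fills_Opp (hn : 2 ≤ n) (hB : BInput k n) (j : ℕ) (hj : j + 2 ≤ n) :
    Fills (Opp k n) j := by
  rw [← level_zero_eq hn]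
  exact fills_level_zero hn hB j hj

end Vale.P067.C
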