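import Vale.Agent.Lib.P067.C.Block

/-!
# P067 part C: levels, sorted chambers, residues (C4)

`uu ν c i = ε * ww ν c i` (for `ord`: `w(i)`; for `-deg`: the least degree on `c_i ∖ c_{i-1}`);
`uu (i + n) = uu i + n`. Level `= ∑_{i=1}^n (uu i - i)²`.
-/

namespace Vale.P067.C

open scoped Classical

variable {k : Type*} [Field k] {n : ℕ}

noncomputable def uu (ν : Val k n) (c : Cham k n) (i : ℤ) : ℤ := ν.ε * ww ν c i

theorem uu_add (ν : Val k n) (c : Cham k n) (i m : ℤ) : uu ν c (i + m * n) = uu ν c i + m * n := by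
  unfold uu
  rw [ww_add]
  rcases ν.sq with h | h <;> rw [h] <;> ring

theorem uu_inj (ν : Val k n) (c : Cham k n) : Function.Injective (uu ν c) := by
  intro i j hij
  apply ww_inj ν c
  unfold uu at hij
  rcases ν.sq with h | h <;> rw [h] at hij <;> omega

theorem uu_image (ν : Val k n) (c c' : Cham k n) (a b : ℤ) (ha : c.c a = c'.c a)
    (hb : c.c b = c'.c b) :
    (Finset.Ioc a b).image (uu ν c) = (Finset.Ioc a b).image (uu ν c') := by
  have h1 : ∀ d : Cham k n, (Finset.Ioc a b).image (uu ν d) =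
      ((Finset.Ioc a b).image (ww ν d)).image (fun x => ν.ε * x) := by
    intro d
    rw [Finset.image_image]
    rfl
  rw [h1, h1, ww_image ν c c' a b ha hb]

theorem uu_sum (ν : Val k n) (c c' : Cham k n) (a b : ℤ) (ha : c.c a = c'.c a)
    (hb : c.c b = c'.c b) (F : ℤ → ℤ) :
    ∑ i ∈ Finset.Ioc a b, F (uu ν c i) = ∑ i ∈ Finset.Ioc a b, F (uu ν c' i) :=
  ww_sum ν c c' a b ha hb (fun x => F (ν.ε * x))

/-- level -/
noncomputable def lvl (ν : Val k n) (c : Cham k n) : ℕ :=
  (∑ i ∈ Finset.Ioc (0 : ℤ) n, (uu ν c i - i) ^ 2).toNat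

theorem lvl_cast (ν : Val k n) (c : Cham k n) :
    (lvl ν c : ℤ) = ∑ i ∈ Finset.Ioc (0 : ℤ) n, (uu ν c i - i) ^ 2 :=
  Int.toNat_of_nonneg (Finset.sum_nonneg fun _ _ => sq_nonneg _)

/-- a sum of an `n`-periodic function over a window of length `n` does not depend on the window -/
theorem sum_window (f : ℤ → ℤ) (hf : ∀ i, f (i + n) = f i) (a b : ℤ) :
    ∑ i ∈ Finset.Ioc a (a + n), f i = ∑ i ∈ Finset.Ioc b (b + n), f i := by
  have hstep : Function.Periodic (fun a : ℤ => ∑ i ∈ Finset.Ioc a (a + n), f i) 1 := by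
    intro a
    change ∑ i ∈ Finset.Ioc (a + 1) (a + 1 + n), f i = ∑ i ∈ Finset.Ioc a (a + n), f i
    rcases Nat.eq_zero_or_pos n with h0 | hpos
    · subst h0
      simp
    · have e1 : Finset.Ioc a (a + n) = insert (a + 1) (Finset.Ioc (a + 1) (a + n)) := by
        ext x
        simp only [Finset.mem_Ioc, Finset.mem_insert]
        omega
      have e2 : Finset.Ioc (a + 1) (a + 1 + n) =
          insert (a + 1 + n) (Finset.Ioc (a + 1) (a + n)) := by
        ext x
        simp only [Finset.mem_Ioc, Finset.mem_insert]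
        omega
      rw [e1, e2, Finset.sum_insert (by simp), Finset.sum_insert, hf]
      simp only [Finset.mem_Ioc]
      omega
  have h0 : ∀ a : ℤ, ∑ i ∈ Finset.Ioc a (a + n), f i = ∑ i ∈ Finset.Ioc 0 (0 + (n : ℤ)), f i := by
    intro a
    have h := (hstep.int_mul a) 0
    simpa using h
  rw [h0 a, h0 b]

theorem lvl_window (ν : Val k n) (c : Cham k n) (a : ℤ) :
    (lvl ν c : ℤ) = ∑ i ∈ Finset.Ioc a (a + n), (uu ν c i - i) ^ 2 := by
  rw [lvl_cast]
  have h := sum_window (n := n) (fun i => (uu ν c i - i) ^ 2) (fun i => by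
    have h1 := uu_add ν c i 1
    rw [one_mul] at h1
    change (uu ν c (i + n) - (i + n)) ^ 2 = (uu ν c i - i) ^ 2
    rw [h1]
    ring) 0 a
  rw [zero_add] at h
  exact h

/-- sorted at all residues in `T` -/
def Sorted (ν : Val k n) (c : Cham k n) (T : Finset (Fin n)) : Prop :=
  ∀ s ∈ T, uu ν c (s : ℕ) < uu ν c ((s : ℕ) + 1)

/-- descent set -/
noncomputable def desc (ν : Val k n) (c : Cham k n) : Finset (Fin n) :=
  Finset.univ.filter fun s => uu ν c ((s : ℕ) + 1) < uu ν c (s : ℕ)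

/-- `c` and `c'` agree at all residues outside `T` -/
def Agree (T : Finset (Fin n)) (c c' : Cham k n) : Prop :=
  ∀ s : Fin n, s ∉ T → c.c (s : ℕ) = c'.c (s : ℕ)

theorem Agree.refl (T : Finset (Fin n)) (c : Cham k n) : Agree T c c := fun _ _ => rfl

theorem Agree.symm {T : Finset (Fin n)} {c c' : Cham k n} (h : Agree T c c') : Agree T c' c :=
  fun s hs => (h s hs).symm

theorem Agree.trans {T : Finset (Fin n)} {c c' c'' : Cham k n} (h : Agree T c c')
    (h' : Agree T c' c'') : Agree T c c'' := fun s hs => (h s hs).trans (h' s hs)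

/-- every integer has a residue -/
theorem exists_res (hn : 0 < n) (i : ℤ) : ∃ (s : Fin n) (m : ℤ), i = (s : ℕ) + m * n := by
  have hn' : (0 : ℤ) < n := by exact_mod_cast hn
  have h1 := Int.emod_nonneg i hn'.ne'
  have h2 := Int.emod_lt_of_pos i hn'
  have h3 := Int.emod_add_mul_ediv i n
  refine ⟨⟨(i % n).toNat, by omega⟩, i / n, ?_⟩
  change i = ((i % n).toNat : ℤ) + i / n * n
  rw [Int.toNat_of_nonneg h1, mul_comm]
  exact h3.symm

theorem res_unique {s t : Fin n} {m l : ℤ} (h : ((s : ℕ) : ℤ) + m * n = (t : ℕ) + l * n) :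
    s = t ∧ m = l := by
  have hs : ((s : ℕ) : ℤ) < n := by exact_mod_cast s.2
  have ht : ((t : ℕ) : ℤ) < n := by exact_mod_cast t.2
  have hs0 : (0 : ℤ) ≤ ((s : ℕ) : ℤ) := Int.natCast_nonneg _
  have ht0 : (0 : ℤ) ≤ ((t : ℕ) : ℤ) := Int.natCast_nonneg _
  have hn : (0 : ℤ) < n := by omega
  have hml : m = l := by
    rcases lt_trichotomy m l with h1 | h1 | h1
    · have h2 : (m + 1) * n ≤ l * n := mul_le_mul_of_nonneg_right (by omega) hn.le
      nlinarith
    · exact h1
    · have h2 : (l + 1) * n ≤ m * n := mul_le_mul_of_nonneg_right (by omega) hn.le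
      nlinarith
  subst hml
  refine ⟨Fin.ext ?_, rfl⟩
  omega

/-- `Agree` at all integers of the residues -/
theorem Agree.at_int {T : Finset (Fin n)} {c c' : Cham k n} (h : Agree T c c') {s : Fin n}
    (hs : s ∉ T) (m : ℤ) : c.c ((s : ℕ) + m * n) = c'.c ((s : ℕ) + m * n) := by
  rw [← Cham.per_zsmul, ← Cham.per_zsmul, h s hs]

/-- `Sorted` at all integers of the residues -/
theorem Sorted.at_int {ν : Val k n} {T : Finset (Fin n)} {c : Cham k n} (h : Sorted ν c T)
    {s : Fin n} (hs : s ∈ T) (m : ℤ) :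
    uu ν c ((s : ℕ) + m * n) < uu ν c ((s : ℕ) + m * n + 1) := by
  have e : ((s : ℕ) : ℤ) + m * n + 1 = ((s : ℕ) + 1) + m * n := by ring
  rw [e, uu_add, uu_add]
  have h1 := h s hs
  linarith

theorem sorted_iff_desc (ν : Val k n) (c : Cham k n) (T : Finset (Fin n)) :
    Sorted ν c T ↔ Disjoint T (desc ν c) := by
  rw [Finset.disjoint_left]
  unfold Sorted desc
  refine forall_congr' fun s => forall_congr' fun _ => ?_
  rw [Finset.mem_filter, not_and]
  constructor
  · intro h1 _ h2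
    exact absurd h1 h2.not_gt
  · intro h1
    refine lt_of_le_of_ne (not_lt.1 (h1 (Finset.mem_univ _))) fun h2 => ?_
    have h3 := uu_inj ν c h2
    omega

end Vale.P067.C
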