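import Vale.Agent.Lib.P067.C.Adapt2
import Vale.Agent.Lib.P067.C.FaceM

/-!
# P067 part C: level zero faces of the first filtration (C9)
-/

namespace Vale.P067.C

open scoped Classical

variable {k : Type*} [Field k] {n : ℕ}

/-- the complex of chambers opposite to `M` -/
def Opp (k : Type*) [Field k] (n : ℕ) : Set (Finset (Fin n × Submodule k (E k))) :=
  {σ | ∃ g ∈ U k n, σ ⊆ Finset.univ.image fun s : Fin n =>
    (s, (L k (s : ℕ)).map (g : E k →ₗ[k] E k))}

private theorem lz_uu_ord (c : Cham k n) (i : ℤ) : uu (vOrd k n) c i = ww (vOrd k n) c i := by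
  have h1 : (vOrd k n).ε = 1 := rfl
  unfold uu
  rw [h1, one_mul]

/-- a normalized chamber of level zero is `g · std` with `g ∈ U` (the adapted automorphism) -/
theorem exists_U_of_lvl_zero (hn : 2 ≤ n) (c : Cham k n) (h : lvl (vOrd k n) c = 0) :
    ∃ g ∈ U k n, ∀ i, c.c i = (L k i).map (g : E k →ₗ[k] E k) := by
  have h0 : 0 < n := by omega
  have hw : ∀ i, ww (vOrd k n) c i = i := by
    intro i
    rw [← lz_uu_ord]
    exact (lvl_eq_zero_iff h0 (vOrd k n) c).1 h i
  obtain ⟨g, hg⟩ := exists_adapted h0 c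
  refine ⟨g, mem_U_of hg.comm ?_, fun i => (hg.map i).symm⟩
  intro a
  have hne : ee k a ≠ 0 := by
    intro h1
    have h2 : (ee k a) a = 0 := by
      rw [h1]
      rfl
    rw [ee, Finsupp.single_eq_same] at h2
    exact one_ne_zero h2
  have hgne : g (ee k a) ≠ 0 := by
    intro h1
    exact hne (g.map_eq_zero_iff.1 h1)
  obtain ⟨l, hl1, hl2, -⟩ := hg.ord (ee k a) hne
  have hla : l = a := by
    by_contra hcon
    exact hl1 (Finsupp.single_eq_of_ne hcon)
  rw [hw, hla] at hl2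
  obtain ⟨-, h4⟩ := ordv_spec hgne
  rw [hl2] at h4
  intro b hb
  rw [Finsupp.sub_apply]
  rcases hb.lt_or_eq with h5 | h5
  · rw [h4 b h5]
    have h6 : (ee k a) b = 0 := Finsupp.single_eq_of_ne (by omega)
    rw [h6, sub_zero]
  · have h6 := hg.lead a
    rw [hw] at h6
    rw [h5, h6]
    have h7 : (ee k a) a = 1 := Finsupp.single_eq_same
    rw [h7, sub_self]

private theorem lz_ord_g {g : E k ≃ₗ[k] E k} (hg : g ∈ U k n) {u : E k} (hu : u ≠ 0) :
    ordv (g u) ≤ ordv u := by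
  by_contra hcon
  rw [not_le] at hcon
  have hgu : g u ≠ 0 := by
    intro h1
    exact hu (g.map_eq_zero_iff.1 h1)
  have h1 : g u ∈ M k (ordv u) := (mem_M_iff_ordv hgu _).2 hcon
  have h2 : g⁻¹ (g u) ∈ M k (ordv u) := U_sub_mem ((U k n).inv_mem hg) _ h1
  have h3 : g⁻¹ (g u) = u := g.symm_apply_apply u
  rw [h3, mem_M_iff_ordv hu] at h2
  exact lt_irrefl _ h2

private theorem lz_ww (c : Cham k n) {g : E k ≃ₗ[k] E k} (hg : g ∈ U k n)
    (h : ∀ i, c.c i = (L k i).map (g : E k →ₗ[k] E k)) (i : ℤ) : ww (vOrd k n) c i = i := by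
  apply le_antisymm
  · obtain ⟨v, hv, hvw⟩ := ww_spec (vOrd k n) c i
    rw [← hvw]
    have h0 : v ≠ 0 := hv.ne_zero
    have h1 := hv.1
    rw [h i] at h1
    obtain ⟨u, hu, huv⟩ := h1
    have huv' : g u = v := huv
    have hu0 : u ≠ 0 := by
      rintro rfl
      rw [map_zero] at huv'
      exact h0 huv'.symm
    have h2 := lz_ord_g hg hu0
    rw [huv'] at h2
    exact h2.trans ((ordv_le_degv hu0).trans ((mem_L_iff_degv hu0 i).1 hu))
  · have hat : c.At i (g (ee k i)) := by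
      refine ⟨?_, ?_⟩
      · rw [h i]
        exact ⟨ee k i, ee_mem_L le_rfl, rfl⟩
      · rw [h (i - 1)]
        rintro ⟨u, hu, huv⟩
        have h1 : u = ee k i := g.injective huv
        rw [h1] at hu
        have h2 : (ee k i) i = 0 := hu i (by omega)
        rw [ee, Finsupp.single_eq_same] at h2
        exact one_ne_zero h2
    have h1 := le_ww (vOrd k n) c hat
    have h2 : ordv (g (ee k i)) = i := by
      have h3 : ∀ b, b ≤ i → g (ee k i) b = (ee k i) b := by
        intro b hb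
        have h4 := hg.2.1 i b hb
        rw [Finsupp.sub_apply] at h4
        exact sub_eq_zero.1 h4
      refine ordv_eq ?_ fun b hb => ?_
      · rw [h3 i le_rfl, ee, Finsupp.single_eq_same]
        exact one_ne_zero
      · rw [h3 b hb.le]
        exact Finsupp.single_eq_of_ne (by omega)
    have h3 : (vOrd k n).ν (g (ee k i)) = ordv (g (ee k i)) := rfl
    rw [h3, h2] at h1
    exact h1

/-- conversely `ord (g v) = ord v` for `g ∈ U`, so `w = id` -/
theorem lvl_zero_of_U (hn : 2 ≤ n) (c : Cham k n) {g : E k ≃ₗ[k] E k} (hg : g ∈ U k n)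
    (h : ∀ i, c.c i = (L k i).map (g : E k →ₗ[k] E k)) : Norm c ∧ lvl (vOrd k n) c = 0 := by
  have hu : ∀ i, uu (vOrd k n) c i = i := by
    intro i
    rw [lz_uu_ord]
    exact lz_ww c hg h i
  refine ⟨?_, (lvl_eq_zero_iff (by omega) (vOrd k n) c).2 hu⟩
  unfold Norm
  refine Finset.sum_eq_zero fun i _ => ?_
  rw [hu i, sub_self]

/-- bounded displacement of the elements of `U` -/
private theorem lz_bound (hn : 0 < n) {g : E k ≃ₗ[k] E k} (hg : g ∈ U k n) :
    ∃ N : ℤ, ∀ i, ∀ v ∈ L k i, g v ∈ L k (i + N) := by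
  have hgne : ∀ a, g (ee k a) ≠ 0 := by
    intro a h1
    have h2 : ee k a = 0 := g.map_eq_zero_iff.1 h1
    have h3 : (ee k a) a = 0 := by
      rw [h2]
      rfl
    rw [ee, Finsupp.single_eq_same] at h3
    exact one_ne_zero h3
  have hsh : ∀ a, sh k n (ee k a) = ee k (a + n) := by
    intro a
    refine Finsupp.ext fun b => ?_
    rw [sh_apply]
    simp only [ee, Finsupp.single_apply]
    by_cases h : a = b - n
    · rw [if_pos h, if_pos (by omega)]
    · rw [if_neg h, if_neg (by omega)]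
  set f : ℤ → ℤ := fun a => degv (g (ee k a)) - a with hf
  have hper : Function.Periodic f (n : ℤ) := by
    intro a
    have h1 : g (ee k (a + n)) = sh k n (g (ee k a)) := by
      rw [← hsh]
      exact hg.1 _
    simp only [hf]
    rw [h1, degv_shift _ _ (hgne a)]
    ring
  set N : ℤ := ∑ l ∈ Finset.Ioc (0 : ℤ) n, |f l| with hN
  have hfN : ∀ a, f a ≤ N := by
    intro a
    obtain ⟨s, m, hs⟩ := exists_res hn (a - 1)
    have hsn : (s : ℕ) < n := s.2
    have h3 : a = ((s : ℕ) + 1 : ℤ) + m * n := by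
      rw [add_right_comm, ← hs]
      ring
    have h4 : f a = f ((s : ℕ) + 1 : ℤ) := by
      rw [h3]
      exact hper.int_mul m _
    rw [h4]
    refine (le_abs_self _).trans ?_
    rw [hN]
    exact Finset.single_le_sum (f := fun l => |f l|) (fun _ _ => abs_nonneg _)
      (Finset.mem_Ioc.2 ⟨by omega, by omega⟩)
  refine ⟨N, fun i v hv => ?_⟩
  have hgv : g v = ∑ a ∈ v.support, v a • g (ee k a) := by
    conv_lhs => rw [← Finsupp.sum_single v]
    rw [Finsupp.sum, map_sum]
    refine Finset.sum_congr rfl fun a _ => ?_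
    rw [← map_smul]
    congr 1
    simp [ee]
  rw [hgv]
  refine Submodule.sum_mem _ fun a ha => Submodule.smul_mem _ _ ?_
  have hai : a ≤ i := by
    by_contra hcon
    exact (Finsupp.mem_support_iff.mp ha) (hv a (not_le.mp hcon))
  rw [mem_L_iff_degv (hgne a)]
  have h5 := hfN a
  simp only [hf] at h5
  omega

private theorem lz_displ (hn : 0 < n) {g : E k ≃ₗ[k] E k} (hg : g ∈ U k n) :
    ∃ N : ℤ, ∀ i, L k (i - N) ≤ (L k i).map (g : E k →ₗ[k] E k) ∧
      (L k i).map (g : E k →ₗ[k] E k) ≤ L k (i + N) := by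
  obtain ⟨N1, h1⟩ := lz_bound hn hg
  obtain ⟨N2, h2⟩ := lz_bound hn ((U k n).inv_mem hg)
  refine ⟨max N1 N2, fun i => ⟨?_, ?_⟩⟩
  · intro v hv
    refine ⟨g⁻¹ v, ?_, g.apply_symm_apply v⟩
    have h3 := h2 _ _ hv
    have h4 := le_max_right N1 N2
    exact L_mono k (by omega) h3
  · rintro _ ⟨v, hv, rfl⟩
    have h3 := h1 _ _ hv
    have h4 := le_max_left N1 N2
    exact L_mono k (by omega) h3

theorem level_zero_eq (hn : 2 ≤ n) :
    {σ | σ ∈ Del k n ∧ flvl (vOrd k n) σ = 0} = Opp k n := by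
  have h0 : 0 < n := by omega
  ext σ
  constructor
  · rintro ⟨hσ, hl⟩
    obtain ⟨c, -, hc2, hc3⟩ := exists_isMin (vOrd k n) hσ
    rw [hl] at hc3
    obtain ⟨g, hg, hgc⟩ := exists_U_of_lvl_zero hn c hc3
    refine ⟨g, hg, fun v hv => ?_⟩
    have h1 := mem_face.1 (hc2 hv)
    rw [Finset.mem_image]
    refine ⟨v.1, Finset.mem_univ _, ?_⟩
    rw [← hgc]
    exact Prod.ext rfl h1.2.symm
  · rintro ⟨g, hg, hσ⟩
    set c : Cham k n := (Cham.std k n).map g hg.1 (lz_displ h0 hg) with hc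
    have hcc : ∀ i, c.c i = (L k i).map (g : E k →ₗ[k] E k) := fun i => rfl
    obtain ⟨h1, h2⟩ := lvl_zero_of_U hn c hg hcc
    have h3 : σ ⊆ face c Finset.univ := by
      intro v hv
      obtain ⟨s, -, rfl⟩ := Finset.mem_image.1 (hσ hv)
      rw [mem_face]
      exact ⟨Finset.mem_univ _, (hcc _).symm⟩
    refine ⟨⟨c, h1, h3⟩, ?_⟩
    have h4 := flvl_le (vOrd k n) h1 h3
    omega

end Vale.P067.C
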