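import Vale.Agent.Lib.P067.C.Equiv
import Vale.Agent.Lib.P067.C.Equiv2
import Vale.Agent.Lib.P067.C.FaceM
import Vale.Agent.Lib.P067.Ext

/-!
# P067 part C: the local complexes of the first filtration are the complexes `Fl` (C7)
-/

namespace Vale.P067.C

open scoped Classical

variable {k : Type*} [Field k] {n : ℕ}

/-- residue -/
def resi (hn : 0 < n) (i : ℤ) : Fin n := ⟨(i % n).toNat, by
  have h1 := Int.emod_nonneg i (show (n : ℤ) ≠ 0 by omega)
  have h2 := Int.emod_lt_of_pos i (show (0 : ℤ) < n by omega)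
  omega⟩

theorem resi_cast (hn : 0 < n) (i : ℤ) : ((resi hn i : ℕ) : ℤ) = i % n := by
  have h1 := Int.emod_nonneg i (show (n : ℤ) ≠ 0 by omega)
  exact Int.toNat_of_nonneg h1

/-- the vertex map from `Fl` to the local complex: `(i, W) ↦ (i mod n, g W shifted by (i mod n) - i)` -/
noncomputable def Fmap (hn : 0 < n) (g : E k ≃ₗ[k] E k) (v : ℤ × Submodule k (E k)) : VV k n :=
  (resi hn v.1, (v.2.map (g : E k →ₗ[k] E k)).map (sh k (v.1 % n - v.1) : E k →ₗ[k] E k))

/-- the integers in `(j0, j0 + n)` with residue in `T` -/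
noncomputable def winT (hn : 0 < n) (j0 : ℤ) (T : Finset (Fin n)) : Finset ℤ :=
  (Finset.Ioo j0 (j0 + n)).filter fun i => resi hn i ∈ T

/-- residues separate the points of a window -/
private theorem Local_window_inj (hn : 0 < n) {j0 i i' : ℤ} (h1 : j0 < i) (h2 : i < j0 + n)
    (h1' : j0 < i') (h2' : i' < j0 + n) (h : resi hn i = resi hn i') : i = i' := by
  have h3 : i % n = i' % n := by
    rw [← resi_cast hn, ← resi_cast hn, h]
  have h4 : (n : ℤ) ∣ i - i' :=
    Int.dvd_of_emod_eq_zero (Int.emod_eq_emod_iff_emod_sub_eq_zero.1 h3)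
  have h5 : i - i' = 0 := by
    refine Int.eq_zero_of_abs_lt_dvd h4 ?_
    rw [abs_lt]
    constructor <;> omega
  omega

theorem winT_card (hn : 0 < n) (j0 : Fin n) (T : Finset (Fin n)) (h : j0 ∉ T) :
    (winT hn (j0 : ℕ) T).card = T.card := by
  have hj := j0.isLt
  refine Finset.card_bij (fun i _ => resi hn i) ?_ ?_ ?_
  · intro i hi
    exact (Finset.mem_filter.1 hi).2
  · intro i hi i' hi' hii
    have h1 := Finset.mem_Ioo.1 (Finset.mem_filter.1 hi).1
    have h1' := Finset.mem_Ioo.1 (Finset.mem_filter.1 hi').1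
    exact Local_window_inj hn h1.1 h1.2 h1'.1 h1'.2 hii
  · intro s hs
    have hsn := s.isLt
    have hne : (s : ℕ) ≠ (j0 : ℕ) := by
      intro h0
      exact h (Fin.ext h0 ▸ hs)
    rcases Nat.lt_or_ge (j0 : ℕ) (s : ℕ) with h1 | h1
    · have h2 : resi hn ((s : ℕ) : ℤ) = s := by
        apply Fin.ext
        have h3 := resi_cast hn ((s : ℕ) : ℤ)
        rw [Int.emod_eq_of_lt (by omega) (by omega)] at h3
        exact_mod_cast h3
      refine ⟨((s : ℕ) : ℤ), Finset.mem_filter.2 ⟨Finset.mem_Ioo.2 ⟨by omega, by omega⟩, ?_⟩, h2⟩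
      rw [h2]
      exact hs
    · have h2 : resi hn (((s : ℕ) : ℤ) + n) = s := by
        apply Fin.ext
        have h3 := resi_cast hn (((s : ℕ) : ℤ) + n)
        rw [Int.add_emod_right, Int.emod_eq_of_lt (by omega) (by omega)] at h3
        exact_mod_cast h3
      refine ⟨((s : ℕ) : ℤ) + n,
        Finset.mem_filter.2 ⟨Finset.mem_Ioo.2 ⟨by omega, by omega⟩, ?_⟩, h2⟩
      rw [h2]
      exact hs

private theorem Local_sh_sh (a b : ℤ) (v : E k) : sh k a (sh k b v) = sh k (a + b) v := by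
  ext x
  rw [sh_apply, sh_apply, sh_apply]
  congr 1
  ring

private theorem Local_comm_nat {g : E k ≃ₗ[k] E k} (hg : g ∈ U k n) (m : ℕ) (v : E k) :
    g (sh k ((m : ℤ) * n) v) = sh k ((m : ℤ) * n) (g v) := by
  induction m with
  | zero =>
    have h0 : ∀ w : E k, sh k (((0 : ℕ) : ℤ) * n) w = w := by
      intro w
      ext b
      rw [sh_apply]
      simp
    rw [h0, h0]
  | succ m ih =>
    have h0 : ∀ w : E k, sh k (((m + 1 : ℕ) : ℤ) * n) w = sh k n (sh k ((m : ℤ) * n) w) := by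
      intro w
      rw [Local_sh_sh]
      congr 2
      push_cast
      ring
    rw [h0, h0, hg.1, ih]

private theorem Local_comm {g : E k ≃ₗ[k] E k} (hg : g ∈ U k n) (m : ℤ) (v : E k) :
    g (sh k (m * n) v) = sh k (m * n) (g v) := by
  rcases le_total 0 m with h | h
  · obtain ⟨l, rfl⟩ := Int.eq_ofNat_of_zero_le h
    exact Local_comm_nat hg l v
  · obtain ⟨l, hl⟩ := Int.eq_ofNat_of_zero_le (neg_nonneg.2 h)
    have hm : m = -(l : ℤ) := by omega
    subst hm
    have h1 := Local_comm_nat hg l (sh k (-(l : ℤ) * n) v)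
    have h2 : ∀ w : E k, sh k ((l : ℤ) * n) (sh k (-(l : ℤ) * n) w) = w := by
      intro w
      rw [Local_sh_sh]
      ext b
      rw [sh_apply]
      congr 1
      ring
    rw [h2] at h1
    have h3 : ∀ w : E k, sh k (-(l : ℤ) * n) (sh k ((l : ℤ) * n) w) = w := by
      intro w
      rw [Local_sh_sh]
      ext b
      rw [sh_apply]
      congr 1
      ring
    rw [h1, h3]

private theorem Local_sh_ee (l b : ℤ) : sh k l (ee k b) = ee k (b + l) := by
  ext c
  rw [sh_apply]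
  simp only [ee, Finsupp.single_apply]
  by_cases h : b = c - l
  · rw [if_pos h, if_pos (by omega)]
  · rw [if_neg h, if_neg (by omega)]

/-- each vector lies in some `L N` -/
private theorem Local_exists_L (a : ℤ) (v : E k) : ∃ N : ℕ, v ∈ L k (a + N) := by
  obtain ⟨B, hB⟩ := v.support.bddAbove
  refine ⟨(B - a).toNat, fun b hb => ?_⟩
  by_contra hcon
  have h1 := hB (Finsupp.mem_support_iff.2 hcon)
  omega

private theorem Local_disp_ee (hn : 0 < n) {g : E k ≃ₗ[k] E k} (hg : g ∈ U k n) :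
    ∃ N : ℕ, ∀ a : ℤ, g (ee k a) ∈ L k (a + N) := by
  choose N hN using fun a : ℤ => Local_exists_L a (g (ee k a))
  refine ⟨(Finset.range n).sup fun r => N (r : ℤ), fun a => ?_⟩
  have hn' : (0 : ℤ) < n := by exact_mod_cast hn
  obtain ⟨r, hr⟩ := Int.eq_ofNat_of_zero_le (Int.emod_nonneg a hn'.ne')
  have hrn := Int.emod_lt_of_pos a hn'
  have hrn' : r < n := by omega
  have h1 : a = (r : ℤ) + (a / n) * n := by
    have := Int.emod_add_mul_ediv a n
    rw [← hr]
    linarith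
  have h2 : N (r : ℤ) ≤ (Finset.range n).sup fun r => N (r : ℤ) :=
    Finset.le_sup (f := fun r : ℕ => N (r : ℤ)) (Finset.mem_range.2 hrn')
  have h3 := hN (r : ℤ)
  rw [h1, ← Local_sh_ee, Local_comm hg]
  intro b hb
  rw [sh_apply]
  refine h3 _ ?_
  have h4 : ((N (r : ℤ) : ℕ) : ℤ) ≤ (((Finset.range n).sup fun r => N (r : ℤ) : ℕ) : ℤ) := by
    exact_mod_cast h2
  linarith

private theorem Local_disp (hn : 0 < n) {g : E k ≃ₗ[k] E k} (hg : g ∈ U k n) :
    ∃ N : ℕ, ∀ i : ℤ, ∀ v ∈ L k i, g v ∈ L k (i + N) := by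
  obtain ⟨N, hN⟩ := Local_disp_ee hn hg
  refine ⟨N, fun i v hv => ?_⟩
  have h1 : v = ∑ l ∈ v.support, v l • ee k l := by
    conv_lhs => rw [← Finsupp.sum_single v]
    rw [Finsupp.sum]
    refine Finset.sum_congr rfl fun l _ => ?_
    rw [Finsupp.smul_single, smul_eq_mul, mul_one]
  rw [h1, map_sum]
  refine Submodule.sum_mem _ fun l hl => ?_
  rw [map_smul]
  refine Submodule.smul_mem _ _ (L_mono k ?_ (hN l))
  by_contra hcon
  exact (Finsupp.mem_support_iff.1 hl) (hv l (by omega))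

/-- the standard chamber moved by an element of `U` -/
theorem exists_cham_of_U (hn : 0 < n) {h : E k ≃ₗ[k] E k} (hh : h ∈ U k n) :
    ∃ c : Cham k n, ∀ i, c.c i = (L k i).map (h : E k →ₗ[k] E k) := by
  obtain ⟨N1, h1⟩ := Local_disp hn hh
  obtain ⟨N2, h2⟩ := Local_disp hn ((U k n).inv_mem hh)
  refine ⟨(Cham.std k n).map h hh.1 ⟨(N1 : ℤ) + N2, fun i => ⟨?_, ?_⟩⟩, fun i => rfl⟩
  · intro v hv
    refine ⟨h⁻¹ v, ?_, h.apply_symm_apply v⟩
    exact L_mono k (by omega) (h2 _ v hv)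
  · rintro _ ⟨v, hv, rfl⟩
    exact L_mono k (by omega) (h1 _ v hv)

theorem Fmap_injOn (hn : 0 < n) (g : E k ≃ₗ[k] E k) (j0 : ℤ) (T : Finset (Fin n)) :
    Set.InjOn (Fmap hn g) {v | ∃ σ ∈ Fl k j0 (j0 + n) (winT hn j0 T), v ∈ σ} := by
  rintro v ⟨σ, hσ, hv⟩ w ⟨τ, hτ, hw⟩ hvw
  have h1 := Finset.mem_Ioo.1 (Finset.mem_filter.1 (hσ.1 v hv).1).1
  have h1' := Finset.mem_Ioo.1 (Finset.mem_filter.1 (hτ.1 w hw).1).1
  have h2 : v.1 = w.1 :=
    Local_window_inj hn h1.1 h1.2 h1'.1 h1'.2 (congrArg Prod.fst hvw)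
  have h3 : (v.2.map (g : E k →ₗ[k] E k)).map (sh k (v.1 % n - v.1) : E k →ₗ[k] E k) =
      (w.2.map (g : E k →ₗ[k] E k)).map (sh k (w.1 % n - w.1) : E k →ₗ[k] E k) :=
    congrArg Prod.snd hvw
  rw [← h2] at h3
  have h4 := Submodule.map_injective_of_injective (f := (sh k (v.1 % n - v.1) : E k →ₗ[k] E k))
    (sh k (v.1 % n - v.1)).injective h3
  have h5 := Submodule.map_injective_of_injective (f := (g : E k →ₗ[k] E k)) g.injective h4
  exact Prod.ext h2 h5

end Vale.P067.C
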