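import Vale.Agent.Lib.P067.C.Local

/-!
# P067 part C: images of faces of `Fl` are local faces
-/

namespace Vale.P067.C

open scoped Classical

variable {k : Type*} [Field k] {n : ℕ}

/-- `τ ∈ Fl`: by `exists_ext` there is `h ∈ U` with `h L_i = L_i` for `i ∈ [j0, j0+n]` of residue outside `T`, `h L_{v.1} = v.2` for
`v ∈ τ`; `c''_i = h L_i`; `c' = c''.map g` is sorted by `sorted_of_isCompl`. -/
theorem image_mem_LocC (hn : 2 ≤ n) (hn' : 0 < n) {c : Cham k n} {g : E k ≃ₗ[k] E k}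
    (hg : Adapted c g) (j0 : Fin n) (hj0 : j0 ∈ desc (vOrd k n) c)
    {τ : Finset (ℤ × Submodule k (E k))}
    (hτ : τ ∈ Fl k (j0 : ℕ) ((j0 : ℕ) + n) (winT hn' (j0 : ℕ) (desc (vOrd k n) c)ᶜ)) :
    τ.image (Fmap hn' g) ∈ LocC (vOrd k n) c := by
  have hTu : (desc (vOrd k n) c)ᶜ ≠ Finset.univ := by
    intro hcon
    have h1 : j0 ∈ (desc (vOrd k n) c)ᶜ := by
      rw [hcon]
      exact Finset.mem_univ _
    exact (Finset.mem_compl.1 h1) hj0
  have hwin : ∀ i, i ∈ winT hn' ((j0 : ℕ) : ℤ) (desc (vOrd k n) c)ᶜ ↔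
      (((j0 : ℕ) : ℤ) < i ∧ i < ((j0 : ℕ) : ℤ) + n) ∧ resi hn' i ∈ (desc (vOrd k n) c)ᶜ := by
    intro i
    unfold winT
    rw [Finset.mem_filter, Finset.mem_Ioo]
  obtain ⟨h, hh, hL, hv⟩ := exists_ext (b := ((j0 : ℕ) : ℤ) + n) hn' rfl
    (fun i hi => ((hwin i).1 hi).1) hτ
  obtain ⟨c'', hc''⟩ := exists_cham_of_U hn' hh
  have hres : ∀ (s : Fin n) (i : ℤ), i % n = (s : ℕ) → resi hn' i = s := by
    intro s i hi
    have h1 := resi_cast hn' i
    rw [hi] at h1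
    exact Fin.ext (by exact_mod_cast h1)
  have hag : Agree (desc (vOrd k n) c)ᶜ (Cham.std k n) c'' := by
    intro s hs
    change L k ((s : ℕ) : ℤ) = c''.c ((s : ℕ) : ℤ)
    rw [hc'']
    have hs0 : (0 : ℤ) ≤ ((s : ℕ) : ℤ) := Int.natCast_nonneg _
    have hs1 : ((s : ℕ) : ℤ) < n := by exact_mod_cast s.2
    have hj0' : (0 : ℤ) ≤ ((j0 : ℕ) : ℤ) := Int.natCast_nonneg _
    have hj1 : ((j0 : ℕ) : ℤ) < n := by exact_mod_cast j0.2
    by_cases hsj : ((j0 : ℕ) : ℤ) ≤ ((s : ℕ) : ℤ)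
    · refine (hL _ hsj (by omega) fun hw => ?_).symm
      rw [hwin, hres s _ (Int.emod_eq_of_lt hs0 hs1)] at hw
      exact hs hw.2
    · have h1 : (L k (((s : ℕ) : ℤ) + n)).map (h : E k →ₗ[k] E k) = L k (((s : ℕ) : ℤ) + n) := by
        refine hL _ (by omega) (by omega) fun hw => ?_
        rw [hwin, hres s _ (by rw [Int.add_emod_right]; exact Int.emod_eq_of_lt hs0 hs1)] at hw
        exact hs hw.2
      exact ((U_St_add hh ((s : ℕ) : ℤ)).1 h1).symm
  have hcompl : ∀ i, IsCompl (c''.c i) (M k i) := by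
    intro i
    rw [hc'', ← U_map_M hh i]
    exact (isCompl_L_M i).map (Submodule.orderIsoMapComap h)
  have hsort : Sorted (vOrd k n) c (desc (vOrd k n) c)ᶜ := by
    rw [sorted_iff_desc]
    exact disjoint_compl_left
  refine ⟨?_, c''.map g hg.comm hg.displ, ?_, sorted_of_isCompl hn hTu hsort hg hag hcompl, ?_⟩
  · intro s hs
    obtain ⟨w, hw, rfl⟩ := Finset.mem_image.1 hs
    obtain ⟨v, hv', rfl⟩ := Finset.mem_image.1 hw
    exact ((hwin v.1).1 (hτ.1 v hv').1).2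
  · intro s hs
    change c.c ((s : ℕ) : ℤ) = (c''.c ((s : ℕ) : ℤ)).map (g : E k →ₗ[k] E k)
    rw [← hag s hs]
    exact (hg.map _).symm
  · intro w hw
    obtain ⟨v, hv', rfl⟩ := Finset.mem_image.1 hw
    rw [mem_face]
    refine ⟨Finset.mem_univ _, ?_⟩
    change (v.2.map (g : E k →ₗ[k] E k)).map (sh k (v.1 % n - v.1) : E k →ₗ[k] E k) =
      (c''.map g hg.comm hg.displ).c ((resi hn' v.1 : ℕ) : ℤ)
    rw [resi_cast, ← hv v hv', ← hc'']
    have e1 : v.1 % n - v.1 = (-(v.1 / n)) * n := by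
      have := Int.emod_add_mul_ediv v.1 n
      linarith
    have e2 := (c''.map g hg.comm hg.displ).per_zsmul v.1 (-(v.1 / n))
    rw [← e1] at e2
    have e3 : v.1 + (v.1 % n - v.1) = v.1 % n := by ring
    rw [e3] at e2
    exact e2

end Vale.P067.C
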