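import Vale.Agent.Lib.P067.C.VanOpp
import Vale.Agent.Lib.P067.B.ConeB
import Vale.Agent.Lib.P067.Interface

/-!
# P067 part C: main theorem
-/

namespace Vale.P067

open C

/-- Part C -/
theorem partC : PartC := by
  intro n
  obtain ⟨q0, hq0⟩ := PB.bInput n
  refine ⟨q0, fun k _ _ hk j hj => ?_⟩
  exact van_of_BInput (hq0 k (by rwa [Nat.card_eq_fintype_card])) j hj

end Vale.P067
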