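import Vale.Agent.Lib.P067.C.SwapLvl

/-!
# P067 part C: minimal chambers of residues = sorted chambers (C4, P1, P2)
-/

namespace Vale.P067.C

open scoped Classical

variable {k : Type*} [Field k] {n : ℕ}

/-- every chamber can be sorted inside its residue without increasing the level (strong induction on the
level, `swap_lvl`) -/
theorem exists_sorted (hn : 2 ≤ n) (ν : Val k n) (c : Cham k n) (T : Finset (Fin n)) :
    ∃ c' : Cham k n, Agree T c c' ∧ Sorted ν c' T ∧ lvl ν c' ≤ lvl ν c := by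
  obtain ⟨N, hN⟩ : ∃ N, N = lvl ν c := ⟨_, rfl⟩
  induction N using Nat.strong_induction_on generalizing c with
  | _ N ih =>
    by_cases hS : Sorted ν c T
    · exact ⟨c, Agree.refl T c, hS, le_rfl⟩
    · have h1 : ∃ s ∈ T, ¬ uu ν c (s : ℕ) < uu ν c ((s : ℕ) + 1) := by
        by_contra hcon
        push Not at hcon
        exact hS hcon
      obtain ⟨s, hsT, hs⟩ := h1
      have h2 : uu ν c ((s : ℕ) + 1) ≠ uu ν c (s : ℕ) := by
        intro he
        have := uu_inj ν c he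
        omega
      obtain ⟨c1, hA, hl⟩ := swap_lvl hn ν c s (lt_of_le_of_ne (not_lt.1 hs) h2)
      obtain ⟨c', hA', hS', hl'⟩ := ih (lvl ν c1) (by rw [hN]; exact hl) c1 rfl
      refine ⟨c', ?_, hS', hl'.trans hl.le⟩
      intro t ht
      have h3 : t ∉ ({s} : Finset (Fin n)) := by
        intro h4
        exact ht (Finset.mem_singleton.1 h4 ▸ hsT)
      exact (hA t h3).trans (hA' t ht)

/-- two strictly increasing functions on `(a, b]` with the same image are equal on `(a, b]` -/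
theorem eq_of_image_eq (f g : ℤ → ℤ) (a b : ℤ) (hf : ∀ i, a < i → i < b → f i < f (i + 1))
    (hg : ∀ i, a < i → i < b → g i < g (i + 1))
    (h : (Finset.Ioc a b).image f = (Finset.Ioc a b).image g) : ∀ i, a < i → i ≤ b → f i = g i := by
  have mono : ∀ f : ℤ → ℤ, (∀ i, a < i → i < b → f i < f (i + 1)) →
      ∀ (d : ℕ) (j : ℤ), a < j → j + 1 + d ≤ b → f j < f (j + 1 + d) := by
    intro f hf d
    induction d with
    | zero =>
      intro j hj hb
      have h1 := hf j hj (by omega)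
      simpa using h1
    | succ d ih =>
      intro j hj hb
      have h1 := ih j hj (by push_cast at hb; omega)
      have h2 := hf (j + 1 + d) (by omega) (by push_cast at hb; omega)
      have h3 : j + 1 + ((d + 1 : ℕ) : ℤ) = j + 1 + d + 1 := by push_cast; ring
      rw [h3]
      exact h1.trans h2
  have mono' : ∀ f : ℤ → ℤ, (∀ i, a < i → i < b → f i < f (i + 1)) →
      ∀ j i : ℤ, a < j → j < i → i ≤ b → f j < f i := by
    intro f hf j i h1 h2 h3
    have h4 := mono f hf (i - j - 1).toNat j h1 (by omega)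
    have h5 : j + 1 + ((i - j - 1).toNat : ℤ) = i := by omega
    rwa [h5] at h4
  -- one inequality
  have key : ∀ f g : ℤ → ℤ, (∀ i, a < i → i < b → f i < f (i + 1)) →
      (∀ i, a < i → i < b → g i < g (i + 1)) →
      (Finset.Ioc a b).image f = (Finset.Ioc a b).image g →
      ∀ i, a < i → i ≤ b → (∀ j, a < j → j < i → f j = g j) → g i ≤ f i := by
    intro f g hf hg h i h1 h2 hj
    have h3 : f i ∈ (Finset.Ioc a b).image g := by
      rw [← h]
      exact Finset.mem_image_of_mem f (Finset.mem_Ioc.2 ⟨h1, h2⟩)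
    obtain ⟨l, hl, he⟩ := Finset.mem_image.1 h3
    rw [Finset.mem_Ioc] at hl
    rcases lt_trichotomy l i with h4 | h4 | h4
    · have h5 := hj l hl.1 h4
      have h6 := mono' f hf l i hl.1 h4 h2
      omega
    · rw [h4] at he
      exact he.le
    · have h6 := mono' g hg i l h1 h4 hl.2
      omega
  have all : ∀ (d : ℕ) (i : ℤ), a < i → i ≤ b → i ≤ a + d → f i = g i := by
    intro d
    induction d with
    | zero =>
      intro i h1 h2 h3
      push_cast at h3
      omega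
    | succ d ih =>
      intro i h1 h2 h3
      have h4 : ∀ j, a < j → j < i → f j = g j := fun j hj1 hj2 =>
        ih j hj1 (by omega) (by push_cast at h3; omega)
      exact le_antisymm (key g f hg hf h.symm i h1 h2 fun j hj1 hj2 => (h4 j hj1 hj2).symm)
        (key f g hf hg h i h1 h2 h4)
  intro i h1 h2
  exact all (i - a).toNat i h1 h2 (by omega)

/-- for `T ≠ univ` every integer `i` lies in a block `(a, b]`, `a, b` of residue outside `T`, all integers
strictly between of residue in `T` -/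
theorem exists_block (hn : 0 < n) (T : Finset (Fin n)) (hT : T ≠ Finset.univ) (i : ℤ) :
    ∃ a b : ℤ, a < i ∧ i ≤ b ∧ b ≤ a + n ∧
      (∃ (s : Fin n) (m : ℤ), s ∉ T ∧ a = (s : ℕ) + m * n) ∧
      (∃ (s : Fin n) (m : ℤ), s ∉ T ∧ b = (s : ℕ) + m * n) ∧
      ∀ l, a < l → l < b → ∃ (s : Fin n) (m : ℤ), s ∈ T ∧ l = (s : ℕ) + m * n := by
  have hn' : (0 : ℤ) < n := by exact_mod_cast hn
  obtain ⟨s0, hs0⟩ : ∃ s0, s0 ∉ T := by
    by_contra hcon
    push Not at hcon
    exact hT (Finset.eq_univ_iff_forall.2 hcon)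
  obtain ⟨Q, hQ⟩ : ∃ Q : ℤ → Prop, Q = fun l => ∃ (s : Fin n) (m : ℤ), s ∉ T ∧
      l = ((s : ℕ) : ℤ) + m * n := ⟨_, rfl⟩
  have hQ0 : ∀ l : ℤ, (n : ℤ) ∣ l - ((s0 : ℕ) : ℤ) → Q l := by
    rintro l ⟨m, hm⟩
    rw [hQ]
    exact ⟨s0, m, hs0, by linarith⟩
  have hQn : ∀ l : ℤ, Q l → Q (l + n) := by
    intro l hl
    rw [hQ] at hl ⊢
    obtain ⟨s, m, hs, he⟩ := hl
    exact ⟨s, m + 1, hs, by rw [he]; ring⟩
  -- upper end
  have hexb : ∃ j : ℕ, Q (i + j) := by
    refine ⟨((((s0 : ℕ) : ℤ) - i) % n).toNat, hQ0 _ ?_⟩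
    have h1 := Int.emod_nonneg (((s0 : ℕ) : ℤ) - i) hn'.ne'
    rw [Int.toNat_of_nonneg h1]
    have h2 := Int.emod_add_mul_ediv (((s0 : ℕ) : ℤ) - i) n
    exact ⟨-((((s0 : ℕ) : ℤ) - i) / n), by linarith⟩
  have hexa' : Q (i - 1 - (((i - 1 - ((s0 : ℕ) : ℤ)) % n).toNat : ℤ)) := by
    refine hQ0 _ ?_
    have h1 := Int.emod_nonneg (i - 1 - ((s0 : ℕ) : ℤ)) hn'.ne'
    rw [Int.toNat_of_nonneg h1]
    have h2 := Int.emod_add_mul_ediv (i - 1 - ((s0 : ℕ) : ℤ)) n
    exact ⟨(i - 1 - ((s0 : ℕ) : ℤ)) / n, by linarith⟩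
  have hexa : ∃ j : ℕ, Q (i - 1 - j) := ⟨_, hexa'⟩
  obtain ⟨B, hB⟩ : ∃ B, B = Nat.find hexb := ⟨_, rfl⟩
  obtain ⟨A, hA⟩ : ∃ A, A = Nat.find hexa := ⟨_, rfl⟩
  have hBs : Q (i + B) := hB ▸ Nat.find_spec hexb
  have hAs : Q (i - 1 - A) := hA ▸ Nat.find_spec hexa
  have hBm : ∀ j < B, ¬ Q (i + j) := fun j hj => Nat.find_min hexb (hB ▸ hj)
  have hAm : ∀ j < A, ¬ Q (i - 1 - j) := fun j hj => Nat.find_min hexa (hA ▸ hj)
  have hAn : (A : ℤ) < n := by
    have h1 : A ≤ ((i - 1 - ((s0 : ℕ) : ℤ)) % n).toNat := hA ▸ Nat.find_min' hexa hexa'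
    have h2 := Int.emod_lt_of_pos (i - 1 - ((s0 : ℕ) : ℤ)) hn'
    have h3 := Int.emod_nonneg (i - 1 - ((s0 : ℕ) : ℤ)) hn'.ne'
    omega
  refine ⟨i - 1 - A, i + B, by omega, by omega, ?_, ?_, ?_, ?_⟩
  · have h1 := hQn _ hAs
    by_contra hcon
    push Not at hcon
    have h2 : i - 1 - (A : ℤ) + n = i + ((n : ℤ) - 1 - A).toNat := by omega
    rw [h2] at h1
    exact hBm _ (by omega) h1
  · rw [hQ] at hAs
    exact hAs
  · rw [hQ] at hBs
    exact hBs
  · intro l h1 h2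
    obtain ⟨s, m, he⟩ := exists_res hn l
    refine ⟨s, m, ?_, he⟩
    by_contra hs
    have hQl : Q l := by
      rw [hQ]
      exact ⟨s, m, hs, he⟩
    by_cases hl : i ≤ l
    · have h3 : l = i + ((l - i).toNat : ℤ) := by omega
      rw [h3] at hQl
      exact hBm _ (by omega) hQl
    · have h3 : l = i - 1 - ((i - 1 - l).toNat : ℤ) := by omega
      rw [h3] at hQl
      exact hAm _ (by omega) hQl

end Vale.P067.C
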