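import Vale.Agent.Lib.P067.C.Block

/-!
# P067 part C: the swap lemma (C3)

`c'_i = c_{i-1} + k v`, `v ∈ c_{i+1} ∖ c_i` with `ν v = ww c (i+1)`, extended periodically (`Cham.replace`).
By `ww_image` (with `a = i-1`, `b = i+1`) `{w'(i), w'(i+1)} = {w(i), w(i+1)}`.
If `w(i) < w(i+1)`: `w'(i) ≥ ν v = w(i+1)`. If `w(i) > w(i+1)`: were `w'(i) = w(i)`, some `α v + u`, `u ∈ c_{i-1}`, `α ≠ 0`, would have
value `w(i) > w(i+1)` but it lies in `c_{i+1} ∖ c_i`. Other residues: `c'_{l-1}, c'_l` unchanged for `l ≢ i, i+1` (`ww_congr`).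
-/

namespace Vale.P067.C

open scoped Classical

variable {k : Type*} [Field k] {n : ℕ}

private theorem not_modEq_of {a b : ℤ} (h1 : 1 ≤ |a - b|) (h2 : |a - b| < n) :
    ¬ a ≡ b [ZMOD n] := by
  intro h
  have h3 : (n : ℤ) ∣ a - b := Int.modEq_iff_dvd.mp h.symm
  have h4 := Int.le_of_dvd (by omega) ((dvd_abs _ _).mpr h3)
  omega

/-- a nonzero multiple of `v` plus an element of `c_{i-1}` is not in `c_i` -/
private theorem not_mem_aux {c : Cham k n} {i : ℤ} {v x : E k} {a : k} (ha : a ≠ 0)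
    (hx : x ∈ c.c i) (hv : v ∉ c.c i) : x + a • v ∉ c.c i := by
  intro h
  have h1 : a • v ∈ c.c i := by
    have := (c.c i).sub_mem h hx
    rwa [add_sub_cancel_left] at this
  exact hv (((c.c i).smul_mem_iff ha).mp h1)

theorem swap (hn : 2 ≤ n) (ν : Val k n) (c : Cham k n) (i : ℤ) :
    ∃ c' : Cham k n, (∀ l, ¬ l ≡ i [ZMOD n] → c'.c l = c.c l) ∧
      ww ν c' i = ww ν c (i + 1) ∧ ww ν c' (i + 1) = ww ν c i ∧
      (∀ l, ¬ l ≡ i [ZMOD n] → ¬ l ≡ i + 1 [ZMOD n] → ww ν c' l = ww ν c l) := by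
  obtain ⟨v, hv, hνv⟩ := ww_spec ν c (i + 1)
  obtain ⟨u, hu⟩ := c.exists_at i
  have hv1 : v ∈ c.c (i + 1) := hv.1
  have hv2 : v ∉ c.c i := by
    have := hv.2
    rwa [add_sub_cancel_right] at this
  have hle : c.c (i - 1) ≤ c.c i := c.mono (by omega)
  have hle1 : c.c i ≤ c.c (i + 1) := c.mono (by omega)
  have hv3 : v ∉ c.c (i - 1) := fun h => hv2 (hle h)
  set W : Submodule k (E k) := Submodule.span k {v} ⊔ c.c (i - 1) with hW
  have hmemW : ∀ w, w ∈ W ↔ ∃ a : k, ∃ x ∈ c.c (i - 1), x + a • v = w := by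
    intro w
    rw [hW, Submodule.mem_sup]
    constructor
    · rintro ⟨y, hy, x, hx, rfl⟩
      obtain ⟨a, rfl⟩ := Submodule.mem_span_singleton.mp hy
      exact ⟨a, x, hx, add_comm _ _⟩
    · rintro ⟨a, x, hx, rfl⟩
      exact ⟨a • v, Submodule.mem_span_singleton.mpr ⟨a, rfl⟩, x, hx, add_comm _ _⟩
  have huW : u ∉ W := by
    intro h
    obtain ⟨a, x, hx, hxu⟩ := (hmemW u).mp h
    by_cases ha : a = 0
    · rw [ha, zero_smul, add_zero] at hxu
      exact hu.2 (hxu ▸ hx)
    · exact not_mem_aux ha (hle hx) hv2 (hxu ▸ hu.1)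
  have hc1 : c.c (i - 1) ⋖ W := Submodule.covBy_span_singleton_sup hv3
  have hc2 : W ⋖ c.c (i + 1) := by
    have h1 : c.c (i + 1) = c.c i ⊔ Submodule.span k {v} := by
      have := c.eq_sup hv
      rwa [add_sub_cancel_right] at this
    have h2 : c.c (i + 1) = Submodule.span k {u} ⊔ W := by
      rw [h1, c.eq_sup hu, hW]
      ac_rfl
    rw [h2]
    exact Submodule.covBy_span_singleton_sup huW
  obtain ⟨c', hc'i, hc'⟩ := c.replace hn i W hc1 hc2
  have hm1 : c'.c (i - 1) = c.c (i - 1) := by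
    refine hc' _ (not_modEq_of ?_ ?_)
    · rw [show i - 1 - i = -1 by ring]; norm_num
    · rw [show i - 1 - i = -1 by ring, abs_neg, abs_one]; omega
  have hm2 : c'.c (i + 1) = c.c (i + 1) := by
    refine hc' _ (not_modEq_of ?_ ?_)
    · rw [show i + 1 - i = 1 by ring]; norm_num
    · rw [show i + 1 - i = 1 by ring, abs_one]; omega
  have himg := ww_image ν c c' (i - 1) (i + 1) hm1.symm hm2.symm
  have hIoc : Finset.Ioc (i - 1) (i + 1) = {i, i + 1} := by
    ext l
    simp only [Finset.mem_Ioc, Finset.mem_insert, Finset.mem_singleton]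
    omega
  rw [hIoc, Finset.image_insert, Finset.image_singleton, Finset.image_insert,
    Finset.image_singleton] at himg
  have hne : ww ν c i ≠ ww ν c (i + 1) := fun h => by
    have := ww_inj ν c h
    omega
  have hne' : ww ν c' i ≠ ww ν c' (i + 1) := fun h => by
    have := ww_inj ν c' h
    omega
  -- `w'(i) = w(i)` is impossible
  have hnot : ww ν c' i ≠ ww ν c i := by
    intro heq
    have h1 : c'.At i v := by
      refine ⟨?_, ?_⟩
      · rw [hc'i, hmemW]
        exact ⟨1, 0, Submodule.zero_mem _, by rw [zero_add, one_smul]⟩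
      · rw [hm1]; exact hv3
    have h2 : ww ν c (i + 1) ≤ ww ν c i := by
      have := le_ww ν c' h1
      rwa [hνv, heq] at this
    obtain ⟨v', hv', hνv'⟩ := ww_spec ν c' i
    have h3 : c.At (i + 1) v' := by
      have h4 := hv'.1
      have h5 := hv'.2
      rw [hc'i] at h4
      rw [hm1] at h5
      obtain ⟨a, x, hx, hxv⟩ := (hmemW v').mp h4
      have ha : a ≠ 0 := by
        intro ha
        rw [ha, zero_smul, add_zero] at hxv
        exact h5 (hxv ▸ hx)
      refine ⟨hc2.le h4, ?_⟩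
      rw [add_sub_cancel_right, ← hxv]
      exact not_mem_aux ha (hle hx) hv2
    have h4 := le_ww ν c h3
    rw [hνv', heq] at h4
    exact hne (le_antisymm h4 h2)
  have hx' : ww ν c' i = ww ν c i ∨ ww ν c' i = ww ν c (i + 1) := by
    have : ww ν c' i ∈ ({ww ν c i, ww ν c (i + 1)} : Finset ℤ) := by
      rw [himg]; simp
    simpa using this
  have hy' : ww ν c' (i + 1) = ww ν c i ∨ ww ν c' (i + 1) = ww ν c (i + 1) := by
    have : ww ν c' (i + 1) ∈ ({ww ν c i, ww ν c (i + 1)} : Finset ℤ) := by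
      rw [himg]; simp
    simpa using this
  have hx : ww ν c' i = ww ν c (i + 1) := hx'.resolve_left hnot
  have hy : ww ν c' (i + 1) = ww ν c i :=
    hy'.resolve_right fun h => hne' (hx.trans h.symm)
  refine ⟨c', hc', hx, hy, fun l h1 h2 => ?_⟩
  refine ww_congr ν (hc' l h1) (hc' (l - 1) fun h => h2 ?_)
  have := h.add_right 1
  rwa [sub_add_cancel] at this

end Vale.P067.C
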