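import Vale.Agent.Lib.P067.C.Level
import Vale.Agent.Lib.P067.C.Swap

/-!
# P067 part C: swapping an unsorted pair decreases the level
-/

namespace Vale.P067.C

open scoped Classical

variable {k : Type*} [Field k] {n : ℕ}

/-- swapping an unsorted pair decreases the level -/
theorem swap_lvl (hn : 2 ≤ n) (ν : Val k n) (c : Cham k n) (s : Fin n)
    (hs : uu ν c ((s : ℕ) + 1) < uu ν c (s : ℕ)) :
    ∃ c' : Cham k n, Agree {s} c c' ∧ lvl ν c' < lvl ν c := by
  obtain ⟨c', h1, h2, h3, h4⟩ := swap hn ν c ((s : ℕ) : ℤ)
  refine ⟨c', ?_, ?_⟩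
  · intro t ht
    rw [Finset.mem_singleton] at ht
    refine (h1 _ ?_).symm
    intro hmod
    apply ht
    apply Fin.ext
    have h5 := hmod.eq
    rw [Int.emod_eq_of_lt (by positivity) (by exact_mod_cast t.2),
      Int.emod_eq_of_lt (by positivity) (by exact_mod_cast s.2)] at h5
    exact_mod_cast h5
  · set σ : ℤ := ((s : ℕ) : ℤ) with hσ
    have hn' : (2 : ℤ) ≤ n := by exact_mod_cast hn
    have hL := lvl_window ν c (σ - 1)
    have hL' := lvl_window ν c' (σ - 1)
    have hd : ∑ i ∈ Finset.Ioc (σ - 1) (σ - 1 + n), ((uu ν c i - i) ^ 2 - (uu ν c' i - i) ^ 2)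
        = ∑ i ∈ ({σ, σ + 1} : Finset ℤ), ((uu ν c i - i) ^ 2 - (uu ν c' i - i) ^ 2) := by
      symm
      apply Finset.sum_subset
      · intro l hl
        rw [Finset.mem_insert, Finset.mem_singleton] at hl
        rw [Finset.mem_Ioc]
        rcases hl with rfl | rfl
        · constructor <;> omega
        · constructor <;> omega
      · intro l hl hl2
        rw [Finset.mem_Ioc] at hl
        rw [Finset.mem_insert, Finset.mem_singleton, not_or] at hl2
        have h5 : ¬ l ≡ σ [ZMOD n] := by
          intro h
          obtain ⟨m, hm⟩ := h.symm.dvd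
          have h6 : 0 < l - σ := by omega
          have h7 : l - σ < n := by omega
          rw [hm] at h6 h7
          have h8 : 0 < m := by
            by_contra h9
            have h10 : m ≤ 0 := not_lt.mp h9
            nlinarith
          nlinarith
        have h6 : ¬ l ≡ σ + 1 [ZMOD n] := by
          intro h
          obtain ⟨m, hm⟩ := h.symm.dvd
          have h6 : 0 < l - (σ + 1) := by omega
          have h7 : l - (σ + 1) < n := by omega
          rw [hm] at h6 h7
          have h8 : 0 < m := by
            by_contra h9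
            have h10 : m ≤ 0 := not_lt.mp h9
            nlinarith
          nlinarith
        have h7 : uu ν c' l = uu ν c l := by
          unfold uu
          rw [h4 l h5 h6]
        rw [h7, sub_self]
    rw [Finset.sum_sub_distrib, ← hL, ← hL', Finset.sum_pair (by omega)] at hd
    have e1 : uu ν c' σ = uu ν c (σ + 1) := by
      unfold uu
      rw [h2]
    have e2 : uu ν c' (σ + 1) = uu ν c σ := by
      unfold uu
      rw [h3]
    rw [e1, e2] at hd
    have h8 : (lvl ν c' : ℤ) < lvl ν c := by nlinarith
    exact_mod_cast h8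

end Vale.P067.C
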