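import Vale.Agent.Lib.P067.FlFacts
import Vale.Agent.Lib.P067.UFacts

/-!
# P067 part C: valuations on `E` (order and minus degree)
-/

namespace Vale.P067.C

open scoped Classical

variable (k : Type*) [Field k] (n : ℕ)

/-- abstract valuation on the nonzero vectors of `E`: `ν = ord`, `ε = 1` or `ν = -deg`, `ε = -1` -/
structure Val where
  ν : E k → ℤ
  ε : ℤ
  sq : ε = 1 ∨ ε = -1
  smul : ∀ (c : k) (v : E k), c ≠ 0 → ν (c • v) = ν v
  add : ∀ v w : E k, v ≠ 0 → w ≠ 0 → v + w ≠ 0 → min (ν v) (ν w) ≤ ν (v + w)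
  exch : ∀ v w : E k, v ≠ 0 → w ≠ 0 → ν v = ν w →
    ∃ c : k, c ≠ 0 ∧ (v - c • w = 0 ∨ ν v < ν (v - c • w))
  shift : ∀ v : E k, v ≠ 0 → ν (sh k n v) = ν v + ε * n
  bdd : ∀ i j : ℤ, ∃ B : ℤ, ∀ v ∈ L k j, v ∉ L k i → ν v ≤ B

variable {k}

/-- least element of the support -/
noncomputable def ordv (v : E k) : ℤ :=
  if h : v.support.Nonempty then v.support.min' h else 0

/-- largest element of the support -/
noncomputable def degv (v : E k) : ℤ :=
  if h : v.support.Nonempty then v.support.max' h else 0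

theorem ordv_spec {v : E k} (h : v ≠ 0) : v (ordv v) ≠ 0 ∧ ∀ b, b < ordv v → v b = 0 := by
  have hS : v.support.Nonempty := Finsupp.support_nonempty_iff.mpr h
  rw [ordv, dif_pos hS]
  refine ⟨Finsupp.mem_support_iff.1 (Finset.min'_mem _ hS), fun b hb => ?_⟩
  by_contra hb0
  exact absurd (Finset.min'_le _ _ (Finsupp.mem_support_iff.2 hb0)) (not_le.2 hb)

theorem degv_spec {v : E k} (h : v ≠ 0) : v (degv v) ≠ 0 ∧ ∀ b, degv v < b → v b = 0 := by
  have hS : v.support.Nonempty := Finsupp.support_nonempty_iff.mpr h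
  rw [degv, dif_pos hS]
  refine ⟨Finsupp.mem_support_iff.1 (Finset.max'_mem _ hS), fun b hb => ?_⟩
  by_contra hb0
  exact absurd (Finset.le_max' _ _ (Finsupp.mem_support_iff.2 hb0)) (not_le.2 hb)

theorem ordv_eq {v : E k} {a : ℤ} (h1 : v a ≠ 0) (h2 : ∀ b, b < a → v b = 0) : ordv v = a := by
  have hv : v ≠ 0 := fun h => h1 (by rw [h]; rfl)
  obtain ⟨h3, h4⟩ := ordv_spec hv
  rcases lt_trichotomy (ordv v) a with h | h | h
  · exact absurd (h2 _ h) h3
  · exact h
  · exact absurd (h4 _ h) h1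

theorem degv_eq {v : E k} {a : ℤ} (h1 : v a ≠ 0) (h2 : ∀ b, a < b → v b = 0) : degv v = a := by
  have hv : v ≠ 0 := fun h => h1 (by rw [h]; rfl)
  obtain ⟨h3, h4⟩ := degv_spec hv
  rcases lt_trichotomy (degv v) a with h | h | h
  · exact absurd (h4 _ h) h1
  · exact h
  · exact absurd (h2 _ h) h3

theorem ordv_smul (c : k) (v : E k) (hc : c ≠ 0) : ordv (c • v) = ordv v := by
  by_cases hv : v = 0
  · rw [hv, smul_zero]
  · obtain ⟨h1, h2⟩ := ordv_spec hv
    refine ordv_eq ?_ fun b hb => ?_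
    · rw [Finsupp.smul_apply]
      exact smul_ne_zero hc h1
    · rw [Finsupp.smul_apply, h2 b hb, smul_zero]

theorem degv_smul (c : k) (v : E k) (hc : c ≠ 0) : degv (c • v) = degv v := by
  by_cases hv : v = 0
  · rw [hv, smul_zero]
  · obtain ⟨h1, h2⟩ := degv_spec hv
    refine degv_eq ?_ fun b hb => ?_
    · rw [Finsupp.smul_apply]
      exact smul_ne_zero hc h1
    · rw [Finsupp.smul_apply, h2 b hb, smul_zero]

theorem ordv_add (v w : E k) (hv : v ≠ 0) (hw : w ≠ 0) (hvw : v + w ≠ 0) :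
    min (ordv v) (ordv w) ≤ ordv (v + w) := by
  by_contra hcon
  rw [not_le, lt_min_iff] at hcon
  apply (ordv_spec hvw).1
  rw [Finsupp.add_apply, (ordv_spec hv).2 _ hcon.1, (ordv_spec hw).2 _ hcon.2, add_zero]

theorem degv_add (v w : E k) (hv : v ≠ 0) (hw : w ≠ 0) (hvw : v + w ≠ 0) :
    degv (v + w) ≤ max (degv v) (degv w) := by
  by_contra hcon
  rw [not_le, max_lt_iff] at hcon
  apply (degv_spec hvw).1
  rw [Finsupp.add_apply, (degv_spec hv).2 _ hcon.1, (degv_spec hw).2 _ hcon.2, add_zero]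

theorem ordv_exch (v w : E k) (hv : v ≠ 0) (hw : w ≠ 0) (h : ordv v = ordv w) :
    ∃ c : k, c ≠ 0 ∧ (v - c • w = 0 ∨ ordv v < ordv (v - c • w)) := by
  obtain ⟨hv1, hv2⟩ := ordv_spec hv
  obtain ⟨hw1, hw2⟩ := ordv_spec hw
  rw [← h] at hw1 hw2
  refine ⟨v (ordv v) / w (ordv v), div_ne_zero hv1 hw1, ?_⟩
  by_cases hu : v - (v (ordv v) / w (ordv v)) • w = 0
  · exact Or.inl hu
  · right
    obtain ⟨h1, -⟩ := ordv_spec hu
    by_contra hcon
    rw [not_lt] at hcon
    apply h1
    rw [Finsupp.sub_apply, Finsupp.smul_apply, smul_eq_mul]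
    rcases lt_or_eq_of_le hcon with h3 | h3
    · rw [hv2 _ h3, hw2 _ h3, mul_zero, sub_zero]
    · rw [h3, div_mul_cancel₀ _ hw1, sub_self]

theorem degv_exch (v w : E k) (hv : v ≠ 0) (hw : w ≠ 0) (h : degv v = degv w) :
    ∃ c : k, c ≠ 0 ∧ (v - c • w = 0 ∨ degv (v - c • w) < degv v) := by
  obtain ⟨hv1, hv2⟩ := degv_spec hv
  obtain ⟨hw1, hw2⟩ := degv_spec hw
  rw [← h] at hw1 hw2
  refine ⟨v (degv v) / w (degv v), div_ne_zero hv1 hw1, ?_⟩
  by_cases hu : v - (v (degv v) / w (degv v)) • w = 0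
  · exact Or.inl hu
  · right
    obtain ⟨h1, -⟩ := degv_spec hu
    by_contra hcon
    rw [not_lt] at hcon
    apply h1
    rw [Finsupp.sub_apply, Finsupp.smul_apply, smul_eq_mul]
    rcases lt_or_eq_of_le hcon with h3 | h3
    · rw [hv2 _ h3, hw2 _ h3, mul_zero, sub_zero]
    · rw [← h3, div_mul_cancel₀ _ hw1, sub_self]

theorem ordv_shift (l : ℤ) (v : E k) (hv : v ≠ 0) : ordv (sh k l v) = ordv v + l := by
  obtain ⟨h1, h2⟩ := ordv_spec hv
  refine ordv_eq ?_ fun b hb => ?_
  · rw [sh_apply, add_sub_cancel_right]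
    exact h1
  · rw [sh_apply]
    exact h2 _ (by omega)

theorem degv_shift (l : ℤ) (v : E k) (hv : v ≠ 0) : degv (sh k l v) = degv v + l := by
  obtain ⟨h1, h2⟩ := degv_spec hv
  refine degv_eq ?_ fun b hb => ?_
  · rw [sh_apply, add_sub_cancel_right]
    exact h1
  · rw [sh_apply]
    exact h2 _ (by omega)

theorem ordv_ee (a : ℤ) : ordv (ee k a) = a := by
  refine ordv_eq ?_ fun b hb => ?_
  · simp [ee]
  · simp only [ee, Finsupp.single_apply]
    rw [if_neg (by omega)]

theorem degv_ee (a : ℤ) : degv (ee k a) = a := by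
  refine degv_eq ?_ fun b hb => ?_
  · simp [ee]
  · simp only [ee, Finsupp.single_apply]
    rw [if_neg (by omega)]

theorem mem_M_iff_ordv {v : E k} (h : v ≠ 0) (i : ℤ) : v ∈ M k i ↔ i < ordv v := by
  obtain ⟨h1, h2⟩ := ordv_spec h
  constructor
  · intro hv
    by_contra hcon
    exact h1 (hv _ (not_lt.1 hcon))
  · intro hi b hb
    exact h2 _ (lt_of_le_of_lt hb hi)

theorem mem_L_iff_degv {v : E k} (h : v ≠ 0) (i : ℤ) : v ∈ L k i ↔ degv v ≤ i := by
  obtain ⟨h1, h2⟩ := degv_spec h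
  constructor
  · intro hv
    by_contra hcon
    exact h1 (hv _ (not_le.1 hcon))
  · intro hi b hb
    exact h2 _ (lt_of_le_of_lt hi hb)

theorem ordv_le_degv {v : E k} (h : v ≠ 0) : ordv v ≤ degv v := by
  by_contra hcon
  exact (ordv_spec h).1 ((degv_spec h).2 _ (not_le.1 hcon))

variable (k)

/-- the valuation `ord` -/
noncomputable def vOrd : Val k n where
  ν := ordv
  ε := 1
  sq := Or.inl rfl
  smul := ordv_smul
  add := ordv_add
  exch := ordv_exch
  shift := fun v hv => by rw [ordv_shift _ v hv]; ring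
  bdd := fun i j => ⟨j, fun v hv hi => by
    have h0 : v ≠ 0 := fun h => hi (h ▸ Submodule.zero_mem _)
    exact (ordv_le_degv h0).trans ((mem_L_iff_degv h0 j).1 hv)⟩

/-- the valuation `-deg` -/
noncomputable def vDeg : Val k n where
  ν := fun v => - degv v
  ε := -1
  sq := Or.inr rfl
  smul := fun c v hc => by
    show - degv (c • v) = - degv v
    rw [degv_smul c v hc]
  add := fun v w hv hw h => by
    show min (- degv v) (- degv w) ≤ - degv (v + w)
    have h1 := degv_add v w hv hw h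
    rcases le_total (degv v) (degv w) with h2 | h2
    · rw [max_eq_right h2] at h1
      rw [min_eq_right (by omega)]
      omega
    · rw [max_eq_left h2] at h1
      rw [min_eq_left (by omega)]
      omega
  exch := fun v w hv hw h => by
    have h' : degv v = degv w := by
      have h'' : - degv v = - degv w := h
      omega
    obtain ⟨c, hc, h1⟩ := degv_exch v w hv hw h'
    refine ⟨c, hc, ?_⟩
    rcases h1 with h1 | h1
    · exact Or.inl h1
    · right
      show - degv v < - degv (v - c • w)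
      omega
  shift := fun v hv => by
    show - degv (sh k n v) = - degv v + -1 * n
    rw [degv_shift _ v hv]
    ring
  bdd := fun i j => ⟨-i, fun v hv hi => by
    have h0 : v ≠ 0 := fun h => hi (h ▸ Submodule.zero_mem _)
    show - degv v ≤ -i
    have := (mem_L_iff_degv h0 i).not.1 hi
    omega⟩

variable {k}

/-- different values: the value of a sum is the smaller one -/
theorem Val.add_eq (ν : Val k n) {v w : E k} (hv : v ≠ 0) (hw : w ≠ 0) (h : ν.ν v < ν.ν w) :
    v + w ≠ 0 ∧ ν.ν (v + w) = ν.ν v := by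
  have hneg : ∀ u : E k, ν.ν (-u) = ν.ν u := by
    intro u
    have := ν.smul (-1) u (neg_ne_zero.mpr one_ne_zero)
    rwa [neg_one_smul] at this
  have hvw : v + w ≠ 0 := by
    intro h0
    have h1 : w = -v := (neg_eq_of_add_eq_zero_right h0).symm
    rw [h1, hneg] at h
    exact lt_irrefl _ h
  refine ⟨hvw, le_antisymm ?_ ?_⟩
  · by_contra hcon
    rw [not_le] at hcon
    have e : (v + w) + (-w) = v := by abel
    have h1 := ν.add (v + w) (-w) hvw (neg_ne_zero.mpr hw) (by rw [e]; exact hv)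
    rw [e, hneg] at h1
    exact absurd h1 (not_le.2 (lt_min hcon h))
  · have h1 := ν.add v w hv hw hvw
    rwa [min_eq_left h.le] at h1

end Vale.P067.C
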