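import Vale.Agent.Lib.P067.C.First
import Vale.Agent.Lib.P067.Dual

/-!
# P067 part C: from `Fills (Opp k n)` to the vanishing of the cohomology of the coset complex of `U` (C10)
-/

namespace Vale.P067.C

open scoped Classical

variable {k : Type*} [Field k] {n : ℕ}

/-- the face `{(s, x L_s) : s ∈ J}` -/
noncomputable def cface (x : U k n) (J : Finset (Fin n)) : Finset (Fin n × Submodule k (E k)) :=
  J.image fun s => (s, (L k (s : ℕ)).map ((x : E k ≃ₗ[k] E k) : E k →ₗ[k] E k))

/-- the vertex `(s, x L_s)` -/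
noncomputable def vo_vx (x : U k n) (s : Fin n) : Fin n × Submodule k (E k) :=
  (s, (L k (s : ℕ)).map ((x : E k ≃ₗ[k] E k) : E k →ₗ[k] E k))

theorem vo_vx_inj (x : U k n) : Function.Injective (vo_vx x) := by
  intro s t h
  exact congrArg Prod.fst h

theorem vo_cface (x : U k n) (J : Finset (Fin n)) : cface x J = J.image (vo_vx x) := rfl

theorem cface_mem (x : U k n) (J : Finset (Fin n)) : cface x J ∈ Opp k n :=
  ⟨(x : E k ≃ₗ[k] E k), x.2, Finset.image_subset_image (Finset.subset_univ J)⟩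

theorem exists_cface {σ : Finset (Fin n × Submodule k (E k))} (h : σ ∈ Opp k n) :
    ∃ (x : U k n) (J : Finset (Fin n)), σ = cface x J := by
  obtain ⟨g, hg, hσ⟩ := h
  obtain ⟨J, _, hJ⟩ := Finset.subset_image_iff.1 hσ
  exact ⟨⟨g, hg⟩, J, hJ.symm⟩

theorem vo_map_eq_iff (g h : E k ≃ₗ[k] E k) (N : Submodule k (E k)) :
    N.map (g : E k →ₗ[k] E k) = N.map (h : E k →ₗ[k] E k) ↔
      N.map ((g⁻¹ * h : E k ≃ₗ[k] E k) : E k →ₗ[k] E k) = N := by
  have e1 : ((g⁻¹ * h : E k ≃ₗ[k] E k) : E k →ₗ[k] E k) =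
      ((g⁻¹ : E k ≃ₗ[k] E k) : E k →ₗ[k] E k).comp (h : E k →ₗ[k] E k) := rfl
  have e2 : ((g⁻¹ : E k ≃ₗ[k] E k) : E k →ₗ[k] E k).comp (g : E k →ₗ[k] E k) =
      LinearMap.id := LinearMap.ext fun v => g.symm_apply_apply v
  have e3 : (g : E k →ₗ[k] E k).comp ((g⁻¹ : E k ≃ₗ[k] E k) : E k →ₗ[k] E k) =
      LinearMap.id := LinearMap.ext fun v => g.apply_symm_apply v
  rw [e1, Submodule.map_comp]
  constructor
  · intro h1
    rw [← h1, ← Submodule.map_comp, e2, Submodule.map_id]
  · intro h1
    have h2 := congrArg (Submodule.map (g : E k →ₗ[k] E k)) h1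
    rw [← Submodule.map_comp, e3, Submodule.map_id] at h2
    exact h2.symm

theorem vo_mem_Hs (x y : U k n) (s : Fin n) :
    x⁻¹ * y ∈ Hs k n s ↔ vo_vx x s = vo_vx y s := by
  have h1 : x⁻¹ * y ∈ Hs k n s ↔ (L k (s : ℕ)).map
      ((((x : E k ≃ₗ[k] E k))⁻¹ * (y : E k ≃ₗ[k] E k) : E k ≃ₗ[k] E k) : E k →ₗ[k] E k) =
        L k (s : ℕ) := Iff.rfl
  rw [h1, ← vo_map_eq_iff]
  constructor
  · intro h
    exact Prod.ext rfl h
  · intro h
    exact congrArg Prod.snd h

theorem vo_mem_HH {G S : Type*} [Group G] (H : S → Subgroup G) (J : Finset S) (x : G) :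
    x ∈ HH H J ↔ ∀ s ∈ J, x ∈ H s := by
  unfold HH
  simp only [Subgroup.mem_iInf]

theorem cface_eq_iff (x y : U k n) (I J : Finset (Fin n)) :
    cface x I = cface y J ↔ I = J ∧ x⁻¹ * y ∈ HH (Hs k n) J := by
  rw [vo_cface, vo_cface, vo_mem_HH]
  constructor
  · intro h
    have h1 : I = J := by
      have h2 := congrArg (fun σ => Finset.image Prod.fst σ) h
      have h3 : ∀ (z : U k n) (K : Finset (Fin n)), (K.image (vo_vx z)).image Prod.fst = K := by
        intro z K
        rw [Finset.image_image]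
        exact Finset.image_id
      have h4 : (I.image (vo_vx x)).image Prod.fst = (J.image (vo_vx y)).image Prod.fst := h2
      rw [h3, h3] at h4
      exact h4
    refine ⟨h1, fun s hs => ?_⟩
    subst h1
    rw [vo_mem_Hs]
    have h5 : vo_vx x s ∈ I.image (vo_vx y) := by
      rw [← h]
      exact Finset.mem_image_of_mem _ hs
    obtain ⟨t, _, ht⟩ := Finset.mem_image.1 h5
    have h6 : t = s := congrArg Prod.fst ht
    rw [← ht, h6]
  · rintro ⟨rfl, h⟩
    refine Finset.image_congr fun s hs => ?_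
    exact (vo_mem_Hs x y s).1 (h s hs)

theorem cface_card (x : U k n) (J : Finset (Fin n)) : (cface x J).card = J.card :=
  Finset.card_image_of_injective J (vo_vx_inj x)

theorem cface_erase (x : U k n) (J : Finset (Fin n)) (s : Fin n) :
    (cface x J).erase (s, (L k (s : ℕ)).map ((x : E k ≃ₗ[k] E k) : E k →ₗ[k] E k)) =
      cface x (J.erase s) :=
  (Finset.image_erase (vo_vx_inj x) J s).symm

theorem vo_sum0 (x : U k n) (J : Finset (Fin n))
    (g : Finset (Fin n × Submodule k (E k)) → ZMod 2) :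
    ∑ v ∈ cface x J, g ((cface x J).erase v) = ∑ s ∈ J, g (cface x (J.erase s)) := by
  have h1 : ∑ v ∈ cface x J, g ((cface x J).erase v) =
      ∑ s ∈ J, g ((cface x J).erase (vo_vx x s)) :=
    Finset.sum_image fun a _ b _ h => vo_vx_inj x h
  rw [h1]
  refine Finset.sum_congr rfl fun s _ => ?_
  exact congrArg g (cface_erase x J s)

theorem vo_erase_inst {S : Type*} (i1 i2 : DecidableEq S) (s : Finset S) (a : S) :
    @Finset.erase _ i1 s a = @Finset.erase _ i2 s a := by
  rw [Subsingleton.elim i1 i2]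

theorem vo_sum (x : U k n) (J : Finset (Fin n))
    (g : Finset (Fin n × Submodule k (E k)) → ZMod 2)
    (i1 : DecidableEq (Fin n × Submodule k (E k))) (i2 : DecidableEq (Fin n)) :
    ∑ v ∈ cface x J, g (@Finset.erase _ i1 (cface x J) v) =
      ∑ s ∈ J, g (cface x (@Finset.erase _ i2 J s)) := by
  refine (Finset.sum_congr rfl fun v _ => ?_).trans ((vo_sum0 x J g).trans
    (Finset.sum_congr rfl fun s _ => ?_))
  · exact congrArg g (vo_erase_inst _ _ _ _)
  · exact congrArg (fun t => g (cface x t)) (vo_erase_inst _ _ _ _)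

theorem vo_card_erase {S : Type*} (i1 : DecidableEq S) {J : Finset S} {s : S} (hs : s ∈ J) :
    (@Finset.erase _ i1 J s).card = J.card - 1 := Finset.card_erase_of_mem hs

theorem vo_empty_union {S : Type*} (i1 : DecidableEq S) (J : Finset S) :
    @Union.union _ (@Finset.instUnion _ i1) ∅ J = J := Finset.empty_union J

/-- C10 -/
theorem van_of_fills (j : ℕ) (h : Fills (Opp k n) (j + 1)) : Van (Hs k n) j := by
  intro f hf hcl
  let F : Finset (Fin n × Submodule k (E k)) → ZMod 2 := fun σ =>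
    if h : ∃ (x : U k n) (J : Finset (Fin n)), σ = cface x J then
      f h.choose_spec.choose h.choose else 0
  have hF : ∀ (x : U k n) (J : Finset (Fin n)), J.card = j + 1 → F (cface x J) = f J x := by
    intro x J hJ
    have hex : ∃ (x' : U k n) (J' : Finset (Fin n)), cface x J = cface x' J' := ⟨x, J, rfl⟩
    have h1 : F (cface x J) = f hex.choose_spec.choose hex.choose := dif_pos hex
    have h2 := (cface_eq_iff _ _ _ _).1 hex.choose_spec.choose_spec
    rw [h1]
    have h3 := h2.2
    rw [← h2.1] at h3 ⊢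
    have h4 := hf J (Finset.disjoint_empty_right J) hJ x (x⁻¹ * hex.choose) (by
      rw [vo_empty_union]
      exact h3)
    rw [mul_inv_cancel_left] at h4
    exact h4
  obtain ⟨g, hg⟩ := dual_fills h F (by
    intro τ hτ hc
    obtain ⟨x, J, rfl⟩ := exists_cface hτ
    rw [cface_card] at hc
    rw [vo_sum x J F _ (fun a b => Classical.propDecidable (a = b))]
    have h1 := hcl J (by omega) x
    unfold dl at h1
    rw [← h1]
    refine Finset.sum_congr rfl fun s hs => hF x _ ?_
    rw [vo_card_erase _ hs]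
    omega)
  refine ⟨fun J x => g (cface x J), ?_, ?_⟩
  · intro J _ _ x h' hh'
    have h1 : cface (x * h') J = cface x J := by
      rw [cface_eq_iff]
      refine ⟨rfl, ?_⟩
      rw [vo_empty_union] at hh'
      have h2 : (x * h')⁻¹ * x = h'⁻¹ := by group
      rw [h2]
      exact (HH (Hs k n) J).inv_mem hh'
    show g (cface (x * h') J) = g (cface x J)
    rw [h1]
  · intro J hJ x
    have h1 := hg (cface x J) (cface_mem x J) (by rw [cface_card]; exact hJ)
    rw [hF x J hJ, vo_sum x J g _ (fun a b => Classical.propDecidable (a = b))] at h1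
    exact h1

theorem van_of_BInput (hB : BInput k n) (j : ℕ) (hj : j + 3 ≤ n) : Van (Hs k n) j :=
  van_of_fills j (fills_Opp (by omega) hB (j + 1) (by omega))

end Vale.P067.C
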