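import Vale.Agent.Lib.P067.C.Cham2

/-!
# P067 part C: the numbers `w_c(i) = max {ν v : v ∈ c_i ∖ c_{i-1}}` (PROOF_C.md C0, C1, C2)
-/

namespace Vale.P067.C

open scoped Classical

variable {k : Type*} [Field k] {n : ℕ}

/-- `w_c(i) = max {ν v : v ∈ c_i ∖ c_{i-1}}` -/
noncomputable def ww (ν : Val k n) (c : Cham k n) (i : ℤ) : ℤ :=
  sSup {x : ℤ | ∃ v, c.At i v ∧ ν.ν v = x}

theorem exists_bound (ν : Val k n) (c : Cham k n) (i : ℤ) : ∃ B : ℤ, ∀ v, c.At i v → ν.ν v ≤ B := by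
  obtain ⟨N, hN⟩ := c.bdd
  obtain ⟨B, hB⟩ := ν.bdd (i - 1 - N) (i + N)
  exact ⟨B, fun v hv => hB v ((hN i).2 hv.1) fun h => hv.2 ((hN (i - 1)).1 h)⟩

private theorem at_nonempty (ν : Val k n) (c : Cham k n) (i : ℤ) :
    {x : ℤ | ∃ v, c.At i v ∧ ν.ν v = x}.Nonempty := by
  obtain ⟨v, hv⟩ := c.exists_at i
  exact ⟨ν.ν v, v, hv, rfl⟩

private theorem at_bddAbove (ν : Val k n) (c : Cham k n) (i : ℤ) :
    BddAbove {x : ℤ | ∃ v, c.At i v ∧ ν.ν v = x} := by
  obtain ⟨B, hB⟩ := exists_bound ν c i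
  refine ⟨B, ?_⟩
  rintro x ⟨v, hv, rfl⟩
  exact hB v hv

theorem ww_spec (ν : Val k n) (c : Cham k n) (i : ℤ) : ∃ v, c.At i v ∧ ν.ν v = ww ν c i :=
  Int.csSup_mem (at_nonempty ν c i) (at_bddAbove ν c i)

theorem le_ww (ν : Val k n) (c : Cham k n) {i : ℤ} {v : E k} (h : c.At i v) : ν.ν v ≤ ww ν c i :=
  le_csSup (at_bddAbove ν c i) ⟨v, h, rfl⟩

theorem ww_congr (ν : Val k n) {c c' : Cham k n} {i : ℤ} (h1 : c.c i = c'.c i)
    (h2 : c.c (i - 1) = c'.c (i - 1)) : ww ν c i = ww ν c' i := by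
  unfold ww Cham.At
  rw [h1, h2]

private theorem sh_ne_zero (l : ℤ) {v : E k} (h : v ≠ 0) : sh k l v ≠ 0 := by
  intro h0
  exact h ((sh k l).map_eq_zero_iff.1 h0)

private theorem sh_sh (l m : ℤ) (v : E k) : sh k l (sh k m v) = sh k (m + l) v := by
  ext b
  rw [sh_apply, sh_apply, sh_apply]
  congr 1
  ring

private theorem sh_zero' (v : E k) : sh k 0 v = v := by
  ext b
  rw [sh_apply, sub_zero]

private theorem shift_nat (ν : Val k n) (m : ℕ) : ∀ v : E k, v ≠ 0 →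
    ν.ν (sh k ((m : ℤ) * n) v) = ν.ν v + ν.ε * ((m : ℤ) * n) := by
  induction m with
  | zero =>
    intro v _
    rw [Nat.cast_zero, zero_mul, sh_zero', mul_zero, add_zero]
  | succ m ih =>
    intro v hv
    have h1 : sh k (((m + 1 : ℕ) : ℤ) * n) v = sh k n (sh k ((m : ℤ) * n) v) := by
      rw [sh_sh]
      congr 2
      push_cast
      ring
    rw [h1, ν.shift _ (sh_ne_zero _ hv), ih v hv]
    push_cast
    ring

private theorem shift_int (ν : Val k n) (m : ℤ) (v : E k) (hv : v ≠ 0) :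
    ν.ν (sh k (m * n) v) = ν.ν v + ν.ε * (m * n) := by
  rcases le_total 0 m with h | h
  · obtain ⟨l, rfl⟩ := Int.eq_ofNat_of_zero_le h
    exact shift_nat ν l v hv
  · obtain ⟨l, hl⟩ := Int.eq_ofNat_of_zero_le (neg_nonneg.2 h)
    have hm : m = -(l : ℤ) := by omega
    subst hm
    have h1 := shift_nat ν l (sh k (-(l : ℤ) * n) v) (sh_ne_zero _ hv)
    rw [sh_sh] at h1
    have h2 : -(l : ℤ) * n + (l : ℤ) * n = 0 := by ring
    rw [h2, sh_zero'] at h1
    rw [h1]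
    ring

theorem ww_add (ν : Val k n) (c : Cham k n) (i m : ℤ) :
    ww ν c (i + m * n) = ww ν c i + ν.ε * (m * n) := by
  apply le_antisymm
  · obtain ⟨v, hv, hvw⟩ := ww_spec ν c (i + m * n)
    have hne : v ≠ 0 := hv.ne_zero
    have h1 : sh k (m * n) (sh k (-(m * n)) v) = v := by
      rw [sh_sh, neg_add_cancel, sh_zero']
    have h2 : c.At i (sh k (-(m * n)) v) := by
      rw [← c.at_sh i m, h1]
      exact hv
    have h3 := shift_int ν m (sh k (-(m * n)) v) (sh_ne_zero _ hne)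
    rw [h1] at h3
    have h4 := le_ww ν c h2
    rw [← hvw, h3]
    linarith
  · obtain ⟨v, hv, hvw⟩ := ww_spec ν c i
    have h2 : c.At (i + m * n) (sh k (m * n) v) := (c.at_sh i m v).2 hv
    have h3 := shift_int ν m v hv.ne_zero
    have h4 := le_ww ν c h2
    rw [h3, hvw] at h4
    exact h4

private theorem ww_ne_of_lt (ν : Val k n) (c : Cham k n) {i i' : ℤ} (h : i < i') :
    ww ν c i ≠ ww ν c i' := by
  intro heq
  obtain ⟨v, hv, hvw⟩ := ww_spec ν c i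
  obtain ⟨v', hv', hvw'⟩ := ww_spec ν c i'
  obtain ⟨l, _, hl⟩ := ν.exch v' v hv'.ne_zero hv.ne_zero (by rw [hvw, hvw', heq])
  have h1 : c.At i' (v' - l • v) := by
    rw [sub_eq_add_neg]
    refine hv'.add ?_
    refine Submodule.neg_mem _ (Submodule.smul_mem _ _ ?_)
    exact c.mono (by omega) hv.1
  rcases hl with h2 | h2
  · exact h1.ne_zero h2
  · have h3 := le_ww ν c h1
    omega

/-- C1 -/
theorem ww_inj (ν : Val k n) (c : Cham k n) : Function.Injective (ww ν c) := by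
  intro i i' h
  rcases lt_trichotomy i i' with h1 | h1 | h1
  · exact absurd h (ww_ne_of_lt ν c h1)
  · exact h1
  · exact absurd h.symm (ww_ne_of_lt ν c h1)

private theorem std_at_ee (i : ℤ) : (Cham.std k n).At i (ee k i) := by
  refine ⟨ee_mem_L le_rfl, ?_⟩
  intro h
  have h1 : (ee k i) i = 0 := h i (by omega)
  rw [ee, Finsupp.single_eq_same] at h1
  exact one_ne_zero h1

/-- std: `ord` -/
theorem ww_std_ord (i : ℤ) : ww (vOrd k n) (Cham.std k n) i = i := by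
  apply le_antisymm
  · obtain ⟨v, hv, hvw⟩ := ww_spec (vOrd k n) (Cham.std k n) i
    rw [← hvw]
    have h0 : v ≠ 0 := hv.ne_zero
    exact (ordv_le_degv h0).trans ((mem_L_iff_degv h0 i).1 hv.1)
  · have h1 := le_ww (vOrd k n) (Cham.std k n) (std_at_ee (k := k) (n := n) i)
    have h2 : (vOrd k n).ν (ee k i) = i := ordv_ee i
    rw [h2] at h1
    exact h1

/-- std: `-deg` -/
theorem ww_std_deg (i : ℤ) : ww (vDeg k n) (Cham.std k n) i = -i := by
  obtain ⟨v, hv, hvw⟩ := ww_spec (vDeg k n) (Cham.std k n) i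
  rw [← hvw]
  have h0 : v ≠ 0 := hv.ne_zero
  have h1 : degv v ≤ i := (mem_L_iff_degv h0 i).1 hv.1
  have h2 : ¬ degv v ≤ i - 1 := fun h => hv.2 ((mem_L_iff_degv h0 (i - 1)).2 h)
  have h3 : (vDeg k n).ν v = - degv v := rfl
  rw [h3]
  omega

end Vale.P067.C
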