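import Vale.Agent.Lib.P067.C.Sort2

/-!
# P067 part C: normalized chambers and level zero (C4, P3)
-/

namespace Vale.P067.C

open scoped Classical

variable {k : Type*} [Field k] {n : ℕ}

/-- normalized chambers: `∑_{i=1}^n (w^{ord}(i) - i) = 0` -/
def Norm (c : Cham k n) : Prop := ∑ i ∈ Finset.Ioc (0 : ℤ) n, (uu (vOrd k n) c i - i) = 0

private theorem uu_std_ord (i : ℤ) : uu (vOrd k n) (Cham.std k n) i = i := by
  have h1 : (vOrd k n).ε = 1 := rfl
  unfold uu
  rw [h1, ww_std_ord, one_mul]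

private theorem uu_std_deg (i : ℤ) : uu (vDeg k n) (Cham.std k n) i = i := by
  have h1 : (vDeg k n).ε = -1 := rfl
  unfold uu
  rw [h1, ww_std_deg]
  ring

private theorem uu_add_one_period (ν : Val k n) (c : Cham k n) (i : ℤ) :
    uu ν c (i + n) = uu ν c i + n := by
  have h1 := uu_add ν c i 1
  rw [one_mul] at h1
  exact h1

private theorem uu_sub_period (ν : Val k n) (c : Cham k n) (i : ℤ) :
    uu ν c (i + n) - (i + n) = uu ν c i - i := by
  rw [uu_add_one_period]
  ring

theorem norm_std : Norm (Cham.std k n) := by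
  unfold Norm
  refine Finset.sum_eq_zero fun i _ => ?_
  rw [uu_std_ord, sub_self]

/-- the normalization sum on any window -/
private theorem norm_window (c : Cham k n) (a : ℤ) :
    ∑ i ∈ Finset.Ioc (0 : ℤ) n, (uu (vOrd k n) c i - i) =
      ∑ i ∈ Finset.Ioc a (a + n), (uu (vOrd k n) c i - i) := by
  have h1 := sum_window (n := n) (fun i => uu (vOrd k n) c i - i)
    (fun i => uu_sub_period (vOrd k n) c i) 0 a
  rw [zero_add] at h1
  exact h1

/-- `c, c'` agree at some residue (hence at `a` and `a + n`): `uu_sum` on the window `(a, a+n]` -/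
theorem norm_agree (hn : 0 < n) {c c' : Cham k n} {T : Finset (Fin n)} (hT : T ≠ Finset.univ)
    (h : Agree T c c') (hc : Norm c) : Norm c' := by
  obtain ⟨s, hs⟩ : ∃ s : Fin n, s ∉ T := by
    by_contra hcon
    apply hT
    rw [Finset.eq_univ_iff_forall]
    intro s
    by_contra h1
    exact hcon ⟨s, h1⟩
  have h0 : c.c ((s : ℕ) : ℤ) = c'.c ((s : ℕ) : ℤ) := h s hs
  have h1 : c.c (((s : ℕ) : ℤ) + n) = c'.c (((s : ℕ) : ℤ) + n) := by
    have h2 := h.at_int hs 1
    rw [one_mul] at h2
    exact h2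
  have h3 := uu_sum (vOrd k n) c c' _ _ h0 h1 (fun x => x)
  unfold Norm at hc ⊢
  rw [norm_window c (s : ℕ), Finset.sum_sub_distrib] at hc
  rw [norm_window c' (s : ℕ), Finset.sum_sub_distrib]
  rw [← h3]
  exact hc

/-- strictly increasing integer function with `f (i + n) = f i + n` is a translation -/
theorem eq_add_of_strictMono (hn : 0 < n) (f : ℤ → ℤ) (hf : ∀ i, f i < f (i + 1))
    (hp : ∀ i, f (i + n) = f i + n) : ∃ m : ℤ, ∀ i, f i = i + m := by
  have h1 : ∀ (m : ℕ) (i : ℤ), f i + m ≤ f (i + m) := by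
    intro m
    induction m with
    | zero =>
      intro i
      rw [Nat.cast_zero, add_zero, add_zero]
    | succ m ih =>
      intro i
      have h2 := ih i
      have h3 := hf (i + m)
      rw [Nat.cast_succ, ← add_assoc, ← add_assoc]
      omega
  have h2 : ∀ i, f (i + 1) = f i + 1 := by
    intro i
    have h3 := h1 (n - 1) (i + 1)
    have h4 : i + 1 + ((n - 1 : ℕ) : ℤ) = i + n := by omega
    rw [h4, hp] at h3
    have h5 := hf i
    omega
  refine ⟨f 0, fun i => ?_⟩
  induction i using Int.induction_on with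
  | zero => rw [zero_add]
  | succ i ih =>
    rw [h2, ih]
    ring
  | pred i ih =>
    have h3 := h2 (-(i : ℤ) - 1)
    rw [sub_add_cancel, ih] at h3
    omega

theorem lvl_eq_zero_iff (hn : 0 < n) (ν : Val k n) (c : Cham k n) :
    lvl ν c = 0 ↔ ∀ i, uu ν c i = i := by
  have h1 := lvl_cast ν c
  constructor
  · intro h i
    rw [h, Nat.cast_zero] at h1
    have h2 := (Finset.sum_eq_zero_iff_of_nonneg fun i _ => sq_nonneg _).1 h1.symm
    obtain ⟨s, m, hs⟩ := exists_res hn (i - 1)
    have h3 : i = ((s : ℕ) + 1 : ℤ) + m * n := by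
      rw [add_right_comm, ← hs]
      ring
    have hsn : (s : ℕ) < n := s.2
    have h4 := h2 ((s : ℕ) + 1 : ℤ) (Finset.mem_Ioc.2 ⟨by omega, by omega⟩)
    have h5 : uu ν c ((s : ℕ) + 1 : ℤ) - ((s : ℕ) + 1 : ℤ) = 0 := pow_eq_zero_iff two_ne_zero |>.1 h4
    rw [h3, uu_add]
    omega
  · intro h
    have h2 : (lvl ν c : ℤ) = 0 := by
      rw [h1]
      refine Finset.sum_eq_zero fun i _ => ?_
      rw [h i, sub_self]
      norm_num
    exact_mod_cast h2

/-- not everything is a descent: `u(i + n) = u(i) + n` -/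
theorem desc_ne_univ (hn : 0 < n) (ν : Val k n) (c : Cham k n) : desc ν c ≠ Finset.univ := by
  intro h
  have h1 : ∀ i, uu ν c (i + 1) < uu ν c i := by
    intro i
    obtain ⟨s, m, hs⟩ := exists_res hn i
    have h2 : s ∈ desc ν c := by
      rw [h]
      exact Finset.mem_univ s
    have h3 := (Finset.mem_filter.1 h2).2
    rw [hs, add_right_comm, uu_add, uu_add]
    omega
  have h2 : ∀ (m : ℕ) (i : ℤ), uu ν c (i + m) ≤ uu ν c i := by
    intro m
    induction m with
    | zero =>
      intro i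
      rw [Nat.cast_zero, add_zero]
    | succ m ih =>
      intro i
      have h3 := ih i
      have h4 := h1 (i + m)
      rw [Nat.cast_succ, ← add_assoc]
      omega
  have h3 := h2 n 0
  rw [uu_add_one_period] at h3
  omega

/-- P3 for `ord` -/
theorem desc_nonempty_ord (hn : 0 < n) (c : Cham k n) (hc : Norm c) (h : 0 < lvl (vOrd k n) c) :
    (desc (vOrd k n) c).Nonempty := by
  by_contra hcon
  rw [Finset.not_nonempty_iff_eq_empty] at hcon
  have h1 : ∀ i, uu (vOrd k n) c i < uu (vOrd k n) c (i + 1) := by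
    intro i
    obtain ⟨s, m, hs⟩ := exists_res hn i
    have h2 : s ∉ desc (vOrd k n) c := by
      rw [hcon]
      exact Finset.notMem_empty s
    have h3 : ¬ uu (vOrd k n) c ((s : ℕ) + 1) < uu (vOrd k n) c (s : ℕ) := fun h4 =>
      h2 (Finset.mem_filter.2 ⟨Finset.mem_univ _, h4⟩)
    have h4 : uu (vOrd k n) c ((s : ℕ) + 1) ≠ uu (vOrd k n) c (s : ℕ) := by
      intro h5
      have h6 := uu_inj (vOrd k n) c h5
      omega
    rw [hs, add_right_comm, uu_add, uu_add]
    omega
  obtain ⟨m, hm⟩ := eq_add_of_strictMono hn _ h1 (uu_add_one_period (vOrd k n) c)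
  unfold Norm at hc
  have h2 : ∑ i ∈ Finset.Ioc (0 : ℤ) n, (uu (vOrd k n) c i - i) = (n : ℤ) * m := by
    have h5 : (((n : ℤ) - 0).toNat : ℤ) = n := by omega
    rw [Finset.sum_congr rfl (g := fun _ => m) (fun i _ => by rw [hm i]; ring), Finset.sum_const,
      Int.card_Ioc, nsmul_eq_mul, h5]
  rw [h2] at hc
  have h3 : m = 0 := by
    rcases mul_eq_zero.1 hc with h4 | h4
    · omega
    · exact h4
  have h4 : lvl (vOrd k n) c = 0 := by
    rw [lvl_eq_zero_iff hn]
    intro i
    rw [hm i, h3, add_zero]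
  omega

theorem lvl_std (hn : 0 < n) : lvl (vOrd k n) (Cham.std k n) = 0 ∧ lvl (vDeg k n) (Cham.std k n) = 0 := by
  rw [lvl_eq_zero_iff hn, lvl_eq_zero_iff hn]
  exact ⟨uu_std_ord, uu_std_deg⟩

end Vale.P067.C
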