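import Vale.Agent.Lib.P067.C.Zero

/-!
# P067 part C: level zero for `-deg` (P3)
-/

namespace Vale.P067.C

open scoped Classical

variable {k : Type*} [Field k] {n : ℕ}

/-- a chamber with `u(i) = i + m` for `-deg` (least degree on `c_i ∖ c_{i-1}` is `i + m`) is the shifted
standard chamber. `L (i+m) ≤ c_i`: take `v_l ∈ c_l ∖ c_{l-1}` of degree `l + m` for `l ≤ i`, and `L (i - N) ≤ c_i`: a vector of
degree `d ≤ i + m` is reduced by multiples of the `v_l` of the same degree until its degree is `≤ i - N`.
`c_i ≤ L (i+m)`: a vector of `c_i` of degree `d > i + m`: let it be at level `l ≤ i`, `d > l + m`, subtract the multiple of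
`v_l` which puts it in `c_{l-1}`: still degree `d > l - 1 + m`; go down; contradiction to `c_l ≤ L (l + N)`. -/
theorem eq_std_of_uu_deg (c : Cham k n) (m : ℤ) (h : ∀ i, uu (vDeg k n) c i = i + m) (i : ℤ) :
    c.c i = L k (i + m) := by
  -- the adapted vectors
  have hv : ∀ l : ℤ, ∃ v, c.At l v ∧ degv v = l + m := by
    intro l
    obtain ⟨v, h1, h2⟩ := ww_spec (vDeg k n) c l
    refine ⟨v, h1, ?_⟩
    have h3 : - degv v = ww (vDeg k n) c l := h2
    have h4 : -1 * ww (vDeg k n) c l = l + m := h l
    omega
  obtain ⟨N, hN⟩ := c.bdd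
  apply le_antisymm
  · -- going down
    intro v hvc
    by_contra hcon
    have hv0 : v ≠ 0 := fun h0 => hcon (h0 ▸ Submodule.zero_mem _)
    have hd : i + m < degv v := by
      by_contra h1
      exact hcon ((mem_L_iff_degv hv0 _).2 (not_lt.1 h1))
    have key : ∀ t : ℕ, ∃ u, u ∈ c.c (i - t) ∧ u ≠ 0 ∧ degv u = degv v := by
      intro t
      induction t with
      | zero => exact ⟨v, by simpa using hvc, hv0, rfl⟩
      | succ t ih =>
        obtain ⟨u, h1, h2, h3⟩ := ih
        have e1 : i - ((t + 1 : ℕ) : ℤ) = (i - t) - 1 := by push_cast; ring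
        rw [e1]
        by_cases h4 : u ∈ c.c (i - t - 1)
        · exact ⟨u, h4, h2, h3⟩
        · obtain ⟨w, hw1, hw2⟩ := hv (i - t)
          obtain ⟨l, hl, h5⟩ := c.exch (⟨h1, h4⟩ : c.At (i - t) u) hw1
          have hw0 : w ≠ 0 := hw1.ne_zero
          have hlw0 : l • w ≠ 0 := smul_ne_zero hl hw0
          have h6 : degv (l • w) < degv u := by
            rw [degv_smul l w hl, hw2, h3]
            omega
          have h7 : (u - l • w) (degv u) ≠ 0 := by
            have h8 : (l • w) (degv u) = 0 := (degv_spec hlw0).2 _ h6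
            rw [Finsupp.sub_apply, h8, sub_zero]
            exact (degv_spec h2).1
          have h9 : degv (u - l • w) = degv u := by
            refine degv_eq h7 (fun b hb => ?_)
            rw [Finsupp.sub_apply, (degv_spec h2).2 b hb, (degv_spec hlw0).2 b (h6.trans hb),
              sub_zero]
          refine ⟨u - l • w, h5, ?_, h9.trans h3⟩
          intro h10
          rw [h10] at h7
          exact h7 rfl
    obtain ⟨u, h1, h2, h3⟩ := key (i + N + 1 - degv v).toNat
    have h4 := (hN (i - ((i + N + 1 - degv v).toNat : ℤ))).2 h1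
    have h5 := (mem_L_iff_degv h2 _).1 h4
    rw [h3] at h5
    have h6 : i + N + 1 - degv v ≤ ((i + N + 1 - degv v).toNat : ℤ) := Int.self_le_toNat _
    omega
  · have key : ∀ d : ℕ, i - N + d ≤ i + m → ∀ v ∈ L k (i - N + d), v ∈ c.c i := by
      intro d
      induction d with
      | zero =>
        intro _ v hvL
        exact (hN i).1 (by simpa using hvL)
      | succ d ih =>
        intro hd v hvL
        have hd' : i - N + (d : ℤ) + 1 ≤ i + m := by push_cast at hd; omega
        obtain ⟨w, hw1, hw2⟩ := hv (i - N + d + 1 - m)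
        have hw0 : w ≠ 0 := hw1.ne_zero
        have hw3 : degv w = i - N + d + 1 := by rw [hw2]; ring
        have hwc : w ∈ c.c i := c.mono (by omega) hw1.1
        have hwt : w (i - N + d + 1) ≠ 0 := by
          have := (degv_spec hw0).1
          rwa [hw3] at this
        have h5 : v - (v (i - N + d + 1) / w (i - N + d + 1)) • w ∈ L k (i - N + d) := by
          intro b hb
          rw [Finsupp.sub_apply, Finsupp.smul_apply, smul_eq_mul]
          rcases eq_or_lt_of_le (by omega : i - N + (d : ℤ) + 1 ≤ b) with h6 | h6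
          · rw [← h6, div_mul_cancel₀ _ hwt, sub_self]
          · have h7 : v b = 0 := hvL b (by push_cast; omega)
            have h8 : w b = 0 := (degv_spec hw0).2 b (by omega)
            rw [h7, h8, mul_zero, sub_zero]
        have h6 := ih (by omega) _ h5
        have h7 := Submodule.add_mem _ h6 (Submodule.smul_mem _ (v (i - N + d + 1) /
          w (i - N + d + 1)) hwc)
        simpa using h7
    rcases le_or_gt (i + m) (i - N) with h1 | h1
    · exact (L_mono k h1).trans (hN i).1
    · intro v hvL
      refine key (m + N).toNat ?_ v ?_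
      · have : ((m + N).toNat : ℤ) = m + N := Int.toNat_of_nonneg (by omega)
        omega
      · have : ((m + N).toNat : ℤ) = m + N := Int.toNat_of_nonneg (by omega)
        rw [this]
        have e : i - N + (m + N) = i + m := by ring
        rwa [e]

/-- P3 for `-deg`: a normalized chamber which is everywhere sorted is standard -/
theorem eq_std_of_sorted_deg (hn : 0 < n) (c : Cham k n) (hc : Norm c)
    (h : Sorted (vDeg k n) c Finset.univ) : c = Cham.std k n := by
  have h1 : ∀ i, uu (vDeg k n) c i < uu (vDeg k n) c (i + 1) := by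
    intro i
    obtain ⟨s, m, rfl⟩ := exists_res hn i
    exact h.at_int (Finset.mem_univ s) m
  have h2 : ∀ i, uu (vDeg k n) c (i + n) = uu (vDeg k n) c i + n := by
    intro i
    have := uu_add (vDeg k n) c i 1
    simpa using this
  obtain ⟨m, hm⟩ := eq_add_of_strictMono hn (uu (vDeg k n) c) h1 h2
  have h3 : ∀ i, c.c i = L k (i + m) := eq_std_of_uu_deg c m hm
  have h4 : ∀ i, uu (vOrd k n) c i = i + m := by
    intro i
    have h5 : ∀ v, c.At i v ↔ (Cham.std k n).At (i + m) v := by
      intro v
      unfold Cham.At
      rw [h3 i, h3 (i - 1), show i - 1 + m = i + m - 1 by ring]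
      rfl
    have h6 : ww (vOrd k n) c i = ww (vOrd k n) (Cham.std k n) (i + m) := by
      unfold ww
      simp only [h5]
    unfold uu
    rw [h6, ww_std_ord]
    exact one_mul _
  have h7 : m = 0 := by
    unfold Norm at hc
    simp only [h4, add_sub_cancel_left, Finset.sum_const, Int.card_Ioc, sub_zero, Int.toNat_natCast,
      nsmul_eq_mul] at hc
    rcases mul_eq_zero.1 hc with h8 | h8
    · exact absurd (by exact_mod_cast h8) hn.ne'
    · exact h8
  refine Cham.ext' (fun i => ?_)
  rw [h3 i, h7, add_zero]
  rfl

theorem desc_nonempty_deg (hn : 0 < n) (c : Cham k n) (hc : Norm c) (h : 0 < lvl (vDeg k n) c) :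
    (desc (vDeg k n) c).Nonempty := by
  rw [Finset.nonempty_iff_ne_empty]
  intro h1
  have h2 : Sorted (vDeg k n) c Finset.univ := by
    rw [sorted_iff_desc, h1]
    exact Finset.disjoint_empty_right _
  have h3 := eq_std_of_sorted_deg hn c hc h2
  rw [h3, (lvl_std (k := k) hn).2] at h
  exact lt_irrefl _ h

end Vale.P067.C
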